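import Vale.Agent.P011.H40.Idx

/-!
# Total mass of the symmetric `2 x 2` matrices

Three nested counting arguments.
-/

set_option autoImplicit false
set_option linter.unusedSectionVars false

open MeasureTheory Filter Topology Set
open scoped ENNReal Pointwise NNReal

namespace Vale.Agent.P011.H40

open Vale.Agent.P011.H699

section Dyadic

/-- Dyadic summation. -/
theorem dyadic {P : Type*} (s : Finset P) (N : P → ℝ) {m D θ x : ℝ} (hm : 0 < m)
    (hN : ∀ p ∈ s, m ≤ N p) (hD : 0 ≤ D) (hθ : 0 ≤ θ)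
    (hcount : ∀ Q, m ≤ Q → ((s.filter (fun p => N p ≤ Q)).card : ℝ) ≤ D * Q ^ θ) (hx : θ < x) :
    ∑ p ∈ s, N p ^ (-x) ≤ D * 2 ^ θ * m ^ (θ - x) / (1 - 2 ^ (θ - x)) := by
  classical
  have hx0 : 0 < x := lt_of_le_of_lt hθ hx
  -- the exponent of the dyadic interval
  have hex : ∀ p : P, ∃ j : ℕ, p ∈ s → (2 : ℝ) ^ j * m ≤ N p ∧ N p ≤ 2 ^ (j + 1) * m := by
    intro p
    by_cases hp : p ∈ s
    · have h1 : 1 ≤ N p / m := by
        rw [le_div_iff₀ hm, one_mul]
        exact hN p hp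
      obtain ⟨j, hj1, hj2⟩ := exists_nat_pow_near h1 (one_lt_two)
      refine ⟨j, fun _ => ⟨?_, ?_⟩⟩
      · rwa [le_div_iff₀ hm] at hj1
      · rw [div_lt_iff₀ hm] at hj2
        exact hj2.le
    · exact ⟨0, fun h => absurd h hp⟩
  choose j hj using hex
  obtain ⟨J, hJ⟩ : ∃ J : ℕ, ∀ p ∈ s, j p < J :=
    ⟨s.sup j + 1, fun p hp => Nat.lt_succ_of_le (Finset.le_sup hp)⟩
  have h1 : ∑ p ∈ s, N p ^ (-x) =
      ∑ i ∈ Finset.range J, ∑ p ∈ s with j p = i, N p ^ (-x) :=
    (Finset.sum_fiberwise_of_maps_to (fun p hp => Finset.mem_range.2 (hJ p hp)) _).symm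
  set ρ : ℝ := 2 ^ (θ - x) with hρ
  have hρ0 : 0 < ρ := by positivity
  have hρ1 : ρ < 1 := Real.rpow_lt_one_of_one_lt_of_neg one_lt_two (by linarith)
  have h2 : ∀ i : ℕ, ∑ p ∈ s with j p = i, N p ^ (-x) ≤ D * 2 ^ θ * m ^ (θ - x) * ρ ^ i := by
    intro i
    have hpos : (0 : ℝ) < 2 ^ i * m := by positivity
    have h3 : ∀ p ∈ s.filter (fun p => j p = i), N p ^ (-x) ≤ (2 ^ i * m) ^ (-x) := by
      intro p hp
      rw [Finset.mem_filter] at hp
      obtain ⟨hps, rfl⟩ := hp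
      exact Real.rpow_le_rpow_of_nonpos hpos (hj p hps).1 (by linarith)
    have h4 : ((s.filter (fun p => j p = i)).card : ℝ) ≤ D * (2 ^ (i + 1) * m) ^ θ := by
      refine le_trans ?_ (hcount (2 ^ (i + 1) * m) ?_)
      · refine Nat.cast_le.2 (Finset.card_le_card fun p hp => ?_)
        rw [Finset.mem_filter] at hp ⊢
        obtain ⟨hps, rfl⟩ := hp
        exact ⟨hps, (hj p hps).2⟩
      · have : (1 : ℝ) ≤ 2 ^ (i + 1) := one_le_pow₀ one_le_two
        nlinarith
    calc ∑ p ∈ s with j p = i, N p ^ (-x) ≤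
        ∑ _p ∈ s.filter (fun p => j p = i), (2 ^ i * m) ^ (-x) := Finset.sum_le_sum h3
      _ = ((s.filter (fun p => j p = i)).card : ℝ) * (2 ^ i * m) ^ (-x) := by
          rw [Finset.sum_const, nsmul_eq_mul]
      _ ≤ D * (2 ^ (i + 1) * m) ^ θ * (2 ^ i * m) ^ (-x) := by gcongr
      _ = D * 2 ^ θ * m ^ (θ - x) * ρ ^ i := by
          have e1 : ((2 : ℝ) ^ (i + 1) * m) = 2 * (2 ^ i * m) := by ring
          have e2 : ((2 : ℝ) ^ i * m) ^ (θ - x) = m ^ (θ - x) * ρ ^ i := by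
            rw [Real.mul_rpow (by positivity) hm.le, hρ, ← Real.rpow_natCast, ← Real.rpow_natCast,
              ← Real.rpow_mul zero_le_two, ← Real.rpow_mul zero_le_two, mul_comm (i : ℝ)]
            ring
          rw [e1, Real.mul_rpow zero_le_two hpos.le, sub_eq_add_neg θ x] at *
          rw [mul_assoc, mul_assoc, ← Real.rpow_add hpos, e2]
          ring
  rw [h1]
  calc ∑ i ∈ Finset.range J, ∑ p ∈ s with j p = i, N p ^ (-x) ≤
      ∑ i ∈ Finset.range J, D * 2 ^ θ * m ^ (θ - x) * ρ ^ i := Finset.sum_le_sum fun i _ => h2 i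
    _ = D * 2 ^ θ * m ^ (θ - x) * ∑ i ∈ Finset.range J, ρ ^ i := by rw [Finset.mul_sum]
    _ ≤ D * 2 ^ θ * m ^ (θ - x) * (1 - ρ)⁻¹ := by
        refine mul_le_mul_of_nonneg_left ?_ (by positivity)
        have h5 := (summable_geometric_of_lt_one hρ0.le hρ1).sum_le_tsum (Finset.range J)
          (fun i _ => by positivity)
        rwa [tsum_geometric_of_lt_one hρ0.le hρ1] at h5
    _ = _ := by rw [div_eq_mul_inv]

end Dyadic

section Main

variable {A E : Type*} [Ring A] [StarRing A] [Ring E] [TopologicalSpace E] [IsTopologicalRing E]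
  [T2Space E] [LocallyCompactSpace E] [MeasurableSpace E] [BorelSpace E] (j : A →+* E)
  (hj : Function.Injective j) {Lam : Subring A}

/-- The counting statement: the elements of `V` incongruent modulo `Lam`, with differences of
modulus at least `1 / Q`. -/
def CountP (j : A →+* E) (Lam : Subring A) (V : Set A) (g : A) (θ : ℝ) : Prop :=
  ∃ C : ℝ, 0 ≤ C ∧ ∀ Q : ℝ, 1 ≤ Q → ∀ P : Finset A, (∀ p ∈ P, p ∈ V) →
    (∀ p ∈ P, ∀ p' ∈ P, ∀ l ∈ Lam, l ∈ V → p - p' + l ≠ 0 →
      ∀ d : Eˣ, (d : E) = j (p - p' + l + g) → 1 ≤ Q * (distribHaarChar E d : ℝ)) →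
    (∀ p ∈ P, ∀ p' ∈ P, p - p' ∈ Lam → p = p') → (P.card : ℝ) ≤ C * Q ^ θ

/-- The data of the `2 x 2` matrix algebra. -/
structure Mat2 (Lam : Subring A) (e f u v : A) : Prop where
  he : e ∈ Lam
  hf : f ∈ Lam
  hu : u ∈ Lam
  hv : v ∈ Lam
  ef : e + f = 1
  ee : e * e = e
  se : star e = e
  eu : e * u = u
  ve : v * e = v
  uv : u * v = e
  vu : v * u = f

namespace Mat2

variable {e f u v : A} (h : Mat2 Lam e f u v)

include h

theorem f_eq : f = 1 - e := by rw [← h.ef]; abel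
theorem ef0 : e * f = 0 := by rw [h.f_eq, mul_sub, mul_one, h.ee, sub_self]
theorem fe0 : f * e = 0 := by rw [h.f_eq, sub_mul, one_mul, h.ee, sub_self]
theorem ff : f * f = f := by rw [h.f_eq, mul_sub, mul_one, ← h.f_eq, h.fe0, sub_zero]
theorem sf : star f = f := by rw [h.f_eq, star_sub, star_one, h.se]
theorem uf : u * f = u := by rw [← h.vu, ← mul_assoc, h.uv, h.eu]
theorem fv : f * v = v := by rw [← h.vu, mul_assoc, h.uv, h.ve]

end Mat2

include hj in
/-- inner sum -/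
theorem sum_a (hΛ : LRing (Lam.map j)) (hden : ∀ y : A, den Lam y ≠ 0) {e f u v : A}
    (h : Mat2 Lam e f u v) (hCa : CountP j Lam {x | star x = x ∧ f * x = x} e (1 / 4)) :
    ∃ C : ℝ, 0 ≤ C ∧ ∀ x : ℝ, 1 ≤ x → ∀ c b : A, star c = c → e * c = c → e * b = b →
      b * f = b → ∀ P : Finset A, (∀ a ∈ P, star a = a ∧ f * a = a) →
      (∀ a ∈ P, ∀ a' ∈ P, a - a' ∈ Lam → a = a') →
      ∑ a ∈ P, (den Lam (c + b + star b + a) : ℝ) ^ (-x) ≤
        C * (den Lam c : ℝ) ^ (-x) *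
          (√((bet (Lam.map j) (j c) (j b) : ℝ) * bet' (Lam.map j) (j c) (j (star b)))) ^
            (1 / 2 - 2 * x) := by
  classical
  obtain ⟨C, hC0, hC⟩ := hCa
  refine ⟨C * 2 ^ (1 / 2 : ℝ) / (1 - 2 ^ (-(1 / 2) : ℝ)), ?_, ?_⟩
  · have : (2 : ℝ) ^ (-(1 / 2) : ℝ) < 1 := Real.rpow_lt_one_of_one_lt_of_neg one_lt_two (by norm_num)
    have h1 : 0 < 1 - (2 : ℝ) ^ (-(1 / 2) : ℝ) := by linarith
    positivity
  intro x hx c b hcs hec heb hbf P hP hinc
  have hce : c * e = c := by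
    have := congrArg star hec
    rwa [star_mul, hcs, h.se] at this
  set Λ := Lam.map j with hΛdef
  have hdE : ∀ y : A, den Λ (j y) = den Lam y := fun y => den_map j hj Lam y
  set β := bet Λ (j c) (j b) with hβ
  set β' := bet' Λ (j c) (j (star b)) with hβ'
  have hβ1 : 1 ≤ β := one_le_bet (by rw [hdE]; exact hden _)
  have hβ1' : 1 ≤ β' := one_le_bet' (by rw [hdE]; exact hden _)
  set γ : ℝ := √((β : ℝ) * β') with hγ
  have hββ : (1 : ℝ) ≤ (β : ℝ) * β' := by
    have h1 : 1 ≤ β * β' := Nat.one_le_iff_ne_zero.2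
      (mul_ne_zero (Nat.one_le_iff_ne_zero.1 hβ1) (Nat.one_le_iff_ne_zero.1 hβ1'))
    exact_mod_cast h1
  have hγ1 : 1 ≤ γ := by
    rw [hγ, Real.one_le_sqrt]
    exact hββ
  have hγsq : γ * γ = (β : ℝ) * β' := Real.mul_self_sqrt (by positivity)
  have hc1 : (1 : ℝ) ≤ den Lam c := by exact_mod_cast den_one_le (hden c)
  set G : ℝ := den Lam c * γ with hG
  have hG0 : 0 < G := by positivity
  -- the orthogonality relations in `E`
  have hort : ∀ a : A, star a = a → f * a = a → Ort (j e) (j f) (j c) (j b) (j (star b)) (j a) := by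
    intro a ha hfa
    refine ort (by rw [← map_add, h.ef, map_one]) ?_ ?_ ?_ ?_ ?_ ?_ ?_ ?_ ?_
    · rw [← map_mul, hec]
    · rw [← map_mul, hce]
    · rw [← map_mul, heb]
    · rw [← map_mul, hbf]
    · rw [← map_mul]
      congr 1
      have := congrArg star hbf
      rwa [star_mul, h.sf] at this
    · rw [← map_mul]
      congr 1
      have := congrArg star heb
      rwa [star_mul, h.se] at this
    · rw [← map_mul, hfa]
    · rw [← map_mul]
      congr 1
      have := congrArg star hfa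
      rwa [star_mul, h.sf, ha] at this
    · rw [← map_mul, h.ee]
  have heE : j e ∈ Λ := ⟨e, h.he, rfl⟩
  have hfE : j f ∈ Λ := ⟨f, h.hf, rfl⟩
  have hefE : j e + j f = 1 := by rw [← map_add, h.ef, map_one]
  have hyE : ∀ a : A, j (c + b + star b + a) = j c + j b + j (star b) + j a := fun a => by
    rw [map_add, map_add, map_add]
  -- the normalized denominators
  set N : A → ℝ := fun a => den Lam (c + b + star b + a) / G with hN
  have hNγ : ∀ a ∈ P, γ ≤ N a := by
    intro a ha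
    obtain ⟨ha1, ha2⟩ := hP a ha
    have h1 := le_den heE hfE hefE (hort a ha1 ha2) (by rw [← hyE, hdE]; exact hden _)
    rw [← hyE, hdE, hdE] at h1
    have h2 : (den Lam c : ℝ) * (β * β') ≤ den Lam (c + b + star b + a) := by exact_mod_cast h1
    rw [hN]
    simp only
    rw [le_div_iff₀ hG0, hG]
    calc γ * (den Lam c * γ) = den Lam c * (γ * γ) := by ring
      _ ≤ _ := by rw [hγsq]; exact h2
  have hcount : ∀ Q, γ ≤ Q → ((P.filter (fun p => N p ≤ Q)).card : ℝ) ≤ C * Q ^ (1 / 2 : ℝ) := by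
    intro Q hQ
    have hQ1 : 1 ≤ Q := hγ1.trans hQ
    have h1 := hC (Q * Q) (by nlinarith) (P.filter (fun p => N p ≤ Q))
      (fun p hp => hP p (Finset.mem_filter.1 hp).1) ?_
      (fun p hp p' hp' => hinc p (Finset.mem_filter.1 hp).1 p' (Finset.mem_filter.1 hp').1)
    · refine h1.trans (le_of_eq ?_)
      have h2 : (Q * Q) ^ (1 / 4 : ℝ) = Q ^ (1 / 2 : ℝ) := by
        rw [← sq, ← Real.rpow_natCast, ← Real.rpow_mul (by linarith)]
        norm_num
      rw [h2]
    · intro p hp p' hp' l hl hl' hne d hd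
      rw [Finset.mem_filter] at hp hp'
      obtain ⟨hp1, hp2⟩ := hP p hp.1
      obtain ⟨hp1', hp2'⟩ := hP p' hp'.1
      obtain ⟨hl1, hl2⟩ := hl'
      -- replace `p'` by `p' - l`
      have hs' : star (p' - l) = p' - l := by rw [star_sub, hp1', hl1]
      have hf' : f * (p' - l) = p' - l := by rw [mul_sub, hp2', hl2]
      have hdl : den Lam (c + b + star b + (p' - l)) = den Lam (c + b + star b + p') := by
        have : c + b + star b + (p' - l) = c + b + star b + p' + (-l) := by abel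
        rw [this, den_add (Lam.neg_mem hl)]
      have h3 := spacing_a hΛ heE hfE hefE (hort p hp1 hp2) (hort (p' - l) hs' hf')
        (by rw [hdE]; exact hden _) (by rw [hdE]; exact hden _)
        (by rw [← hyE, hdE]; exact hden _) (by rw [← hyE, hdE]; exact hden _) d (by
          rw [hd, ← map_sub, ← map_add]
          congr 1
          abel)
      rw [← hyE, ← hyE, hdE, hdE, hdE, hdl] at h3
      have h4 : (den Lam c : ℝ) ^ 2 * (β * β') ≤ den Lam (c + b + star b + p) *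
          den Lam (c + b + star b + p') * (distribHaarChar E d : ℝ) := by exact_mod_cast h3
      have h5 : (den Lam (c + b + star b + p) : ℝ) = N p * G := by
        rw [hN]
        field_simp
      have h6 : (den Lam (c + b + star b + p') : ℝ) = N p' * G := by
        rw [hN]
        field_simp
      have h7 : (den Lam c : ℝ) ^ 2 * (β * β') = G * G := by
        rw [hG, ← hγsq]
        ring
      rw [h7, h5, h6] at h4
      have h8 : G * G * 1 ≤ G * G * (N p * N p' * (distribHaarChar E d : ℝ)) := by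
        calc G * G * 1 = G * G := mul_one _
          _ ≤ _ := h4
          _ = _ := by ring
      have h9 := le_of_mul_le_mul_left h8 (by positivity)
      refine h9.trans ?_
      have h10 : 0 ≤ N p := by linarith [hNγ p hp.1]
      have h11 : 0 ≤ N p' := by linarith [hNγ p' hp'.1]
      have h12 : N p * N p' ≤ Q * Q := mul_le_mul hp.2 hp'.2 h11 (by linarith)
      exact mul_le_mul_of_nonneg_right h12 (by positivity)
  have hmain := dyadic P N (m := γ) (D := C) (θ := 1 / 2) (x := x) (by linarith) hNγ hC0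
    (by norm_num) hcount (by linarith)
  have h1 : ∀ a ∈ P, (den Lam (c + b + star b + a) : ℝ) ^ (-x) = G ^ (-x) * N a ^ (-x) := by
    intro a ha
    have h5 : (den Lam (c + b + star b + a) : ℝ) = G * N a := by
      rw [hN]
      field_simp
    rw [h5, Real.mul_rpow hG0.le (by linarith [hNγ a ha])]
  rw [Finset.sum_congr rfl h1, ← Finset.mul_sum]
  have hρ : (2 : ℝ) ^ (1 / 2 - x) ≤ 2 ^ (-(1 / 2) : ℝ) :=
    Real.rpow_le_rpow_of_exponent_le one_le_two (by linarith)
  have hρ1 : (2 : ℝ) ^ (-(1 / 2) : ℝ) < 1 := Real.rpow_lt_one_of_one_lt_of_neg one_lt_two (by norm_num)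
  have hγ0 : 0 < γ := by linarith
  calc G ^ (-x) * ∑ a ∈ P, N a ^ (-x)
      ≤ G ^ (-x) * (C * 2 ^ (1 / 2 : ℝ) * γ ^ (1 / 2 - x) / (1 - 2 ^ (1 / 2 - x))) :=
        mul_le_mul_of_nonneg_left hmain (by positivity)
    _ ≤ G ^ (-x) * (C * 2 ^ (1 / 2 : ℝ) * γ ^ (1 / 2 - x) / (1 - 2 ^ (-(1 / 2) : ℝ))) := by
        refine mul_le_mul_of_nonneg_left ?_ (by positivity)
        refine div_le_div_of_nonneg_left (by positivity) (by linarith) (by linarith)
    _ = C * 2 ^ (1 / 2 : ℝ) / (1 - 2 ^ (-(1 / 2) : ℝ)) * (den Lam c : ℝ) ^ (-x) *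
          γ ^ (1 / 2 - 2 * x) := by
        rw [hG, Real.mul_rpow (by positivity) hγ0.le]
        have h2 : γ ^ (1 / 2 - 2 * x) = γ ^ (-x) * γ ^ (1 / 2 - x) := by
          rw [← Real.rpow_add hγ0]
          congr 1
          ring
        rw [h2]
        ring

include hj in
/-- middle sum -/
theorem sum_b (hΛ : LRing (Lam.map j)) (hden : ∀ y : A, den Lam y ≠ 0) {e f u v : A}
    (h : Mat2 Lam e f u v) (hst : ∀ x ∈ Lam, star x ∈ Lam)
    (hCb : CountP j Lam {x | e * x = x ∧ x * e = x} f (1 / 2)) :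
    ∃ C : ℝ, 0 ≤ C ∧ ∀ x : ℝ, 1 ≤ x → ∀ c : A, ∀ P : Finset A,
      (∀ b ∈ P, e * b = b ∧ b * f = b) → (∀ b ∈ P, ∀ b' ∈ P, b - b' ∈ Lam → b = b') →
      ∑ b ∈ P, (√((bet (Lam.map j) (j c) (j b) : ℝ) * bet' (Lam.map j) (j c) (j (star b)))) ^
        (1 / 2 - 2 * x) ≤ C * (den Lam c : ℝ) ^ (1 / 2 : ℝ) := by
  classical
  obtain ⟨C, hC0, hC⟩ := hCb
  refine ⟨2 * C * 2 ^ (1 : ℝ) / (1 - 2 ^ (-(1 / 2) : ℝ)), ?_, ?_⟩
  · have : (2 : ℝ) ^ (-(1 / 2) : ℝ) < 1 := Real.rpow_lt_one_of_one_lt_of_neg one_lt_two (by norm_num)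
    have h1 : 0 < 1 - (2 : ℝ) ^ (-(1 / 2) : ℝ) := by linarith
    positivity
  intro x hx c P hP hinc
  set Λ := Lam.map j with hΛdef
  have hdE : ∀ y : A, den Λ (j y) = den Lam y := fun y => den_map j hj Lam y
  have hc1 : (1 : ℝ) ≤ den Lam c := by exact_mod_cast den_one_le (hden c)
  have hfE : j f ∈ Λ := ⟨f, h.hf, rfl⟩
  set β : A → ℕ := fun b => bet Λ (j c) (j b) with hβ
  set β' : A → ℕ := fun b => bet' Λ (j c) (j (star b)) with hβ'
  have hβ1 : ∀ b, 1 ≤ β b := fun b => one_le_bet (by rw [hdE]; exact hden _)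
  have hβ1' : ∀ b, 1 ≤ β' b := fun b => one_le_bet' (by rw [hdE]; exact hden _)
  set γ : A → ℝ := fun b => √((β b : ℝ) * β' b) with hγ
  have hγ1 : ∀ b, 1 ≤ γ b := by
    intro b
    rw [hγ]
    simp only
    rw [Real.one_le_sqrt]
    have h1 : 1 ≤ β b * β' b := Nat.one_le_iff_ne_zero.2
      (mul_ne_zero (Nat.one_le_iff_ne_zero.1 (hβ1 b)) (Nat.one_le_iff_ne_zero.1 (hβ1' b)))
    exact_mod_cast h1
  -- the conjugates
  have hbs : ∀ b ∈ P, f * star b = star b ∧ star b * e = star b := by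
    intro b hb
    obtain ⟨h1, h2⟩ := hP b hb
    constructor
    · have := congrArg star h2
      rwa [star_mul, h.sf] at this
    · have := congrArg star h1
      rwa [star_mul, h.se] at this
  -- counting with the first denominator
  have hcnt1 : ∀ Q : ℝ, 1 ≤ Q → ((P.filter (fun b => (β b : ℝ) ≤ Q)).card : ℝ) ≤
      C * (den Lam c : ℝ) ^ (1 / 2 : ℝ) * Q := by
    intro Q hQ
    have hinj : Set.InjOn (fun b : A => b * v) (P.filter (fun b => (β b : ℝ) ≤ Q)) := by
      intro b hb b' hb' hbb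
      have hb1 := hP b (Finset.mem_filter.1 hb).1
      have hb1' := hP b' (Finset.mem_filter.1 hb').1
      have h1 : b * v * u = b' * v * u := congrArg (· * u) hbb
      rwa [mul_assoc, mul_assoc, h.vu, hb1.2, hb1'.2] at h1
    have h1 := hC (den Lam c * (Q * Q)) (by nlinarith) ((P.filter (fun b => (β b : ℝ) ≤ Q)).image
      (fun b => b * v)) ?_ ?_ ?_
    · rw [Finset.card_image_of_injOn hinj] at h1
      refine h1.trans (le_of_eq ?_)
      rw [Real.mul_rpow (by positivity) (by positivity), ← sq, ← Real.rpow_natCast,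
        ← Real.rpow_mul (by linarith)]
      norm_num
      ring
    · intro p hp
      obtain ⟨b, hb, rfl⟩ := Finset.mem_image.1 hp
      obtain ⟨hb1, hb2⟩ := hP b (Finset.mem_filter.1 hb).1
      exact ⟨by rw [← mul_assoc, hb1], by rw [mul_assoc, h.ve]⟩
    · intro p hp p' hp' l hl hl' hne d hd
      obtain ⟨b, hb, rfl⟩ := Finset.mem_image.1 hp
      obtain ⟨b', hb', rfl⟩ := Finset.mem_image.1 hp'
      have hbQ := (Finset.mem_filter.1 hb).2
      have hbQ' := (Finset.mem_filter.1 hb').2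
      have hd' : (d : E) = (j b - j (b' - l * u)) * j v + j f := by
        rw [hd, ← map_sub, ← map_mul, ← map_add]
        congr 1
        have h2 : l * u * v = l := by rw [mul_assoc, h.uv, hl'.2]
        rw [sub_mul, sub_mul, h2]
        abel
      have hβl : bet Λ (j c) (j (b' - l * u)) = β b' := by
        rw [hβ, map_sub, sub_eq_add_neg, ← map_neg]
        exact bet_add ⟨_, Lam.neg_mem (Lam.mul_mem hl h.hu), rfl⟩
      have h3 := spacing_b hΛ hfE (v := j v) ⟨v, h.hv, rfl⟩ (c := j c) (by rw [hdE]; exact hden _)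
        (by rw [hdE]; exact hden _) (by rw [hdE]; exact hden _) d hd'
      rw [hβl, hdE] at h3
      have h4 : (1 : ℝ) ≤ den Lam c * ((β b : ℝ) * β b') * (distribHaarChar E d : ℝ) := by
        exact_mod_cast h3
      refine h4.trans ?_
      gcongr
    · intro p hp p' hp' hpp
      obtain ⟨b, hb, rfl⟩ := Finset.mem_image.1 hp
      obtain ⟨b', hb', rfl⟩ := Finset.mem_image.1 hp'
      have hb1 := hP b (Finset.mem_filter.1 hb).1
      have hb1' := hP b' (Finset.mem_filter.1 hb').1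
      have h2 : b - b' = (b * v - b' * v) * u := by
        rw [sub_mul, mul_assoc, mul_assoc, h.vu, hb1.2, hb1'.2]
      have h3 := hinc b (Finset.mem_filter.1 hb).1 b' (Finset.mem_filter.1 hb').1
        (by rw [h2]; exact Lam.mul_mem hpp h.hu)
      rw [h3]
  have hcnt2 : ∀ Q : ℝ, 1 ≤ Q → ((P.filter (fun b => (β' b : ℝ) ≤ Q)).card : ℝ) ≤
      C * (den Lam c : ℝ) ^ (1 / 2 : ℝ) * Q := by
    intro Q hQ
    have hinj : Set.InjOn (fun b : A => u * star b) (P.filter (fun b => (β' b : ℝ) ≤ Q)) := by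
      intro b hb b' hb' hbb
      have hb1 := hbs b (Finset.mem_filter.1 hb).1
      have hb1' := hbs b' (Finset.mem_filter.1 hb').1
      have h1 : v * (u * star b) = v * (u * star b') := congrArg (v * ·) hbb
      rw [← mul_assoc, ← mul_assoc, h.vu, hb1.1, hb1'.1] at h1
      exact star_injective h1
    have h1 := hC (den Lam c * (Q * Q)) (by nlinarith) ((P.filter (fun b => (β' b : ℝ) ≤ Q)).image
      (fun b => u * star b)) ?_ ?_ ?_
    · rw [Finset.card_image_of_injOn hinj] at h1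
      refine h1.trans (le_of_eq ?_)
      rw [Real.mul_rpow (by positivity) (by positivity), ← sq, ← Real.rpow_natCast,
        ← Real.rpow_mul (by linarith)]
      norm_num
      ring
    · intro p hp
      obtain ⟨b, hb, rfl⟩ := Finset.mem_image.1 hp
      obtain ⟨hb1, hb2⟩ := hbs b (Finset.mem_filter.1 hb).1
      exact ⟨by rw [← mul_assoc, h.eu], by rw [mul_assoc, hb2]⟩
    · intro p hp p' hp' l hl hl' hne d hd
      obtain ⟨b, hb, rfl⟩ := Finset.mem_image.1 hp
      obtain ⟨b', hb', rfl⟩ := Finset.mem_image.1 hp'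
      have hbQ := (Finset.mem_filter.1 hb).2
      have hbQ' := (Finset.mem_filter.1 hb').2
      have hd' : (d : E) = j u * (j (star b) - j (star b' - v * l)) + j f := by
        rw [hd, ← map_sub, ← map_mul, ← map_add]
        congr 1
        have h2 : u * (v * l) = l := by rw [← mul_assoc, h.uv, hl'.1]
        rw [mul_sub, mul_sub, h2]
        abel
      have hβl : bet' Λ (j c) (j (star b' - v * l)) = β' b' := by
        rw [hβ', map_sub, sub_eq_add_neg, ← map_neg]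
        exact bet'_add ⟨_, Lam.neg_mem (Lam.mul_mem h.hv hl), rfl⟩
      have h3 := spacing_b' hΛ hfE (u := j u) ⟨u, h.hu, rfl⟩ (c := j c)
        (by rw [hdE]; exact hden _) (by rw [hdE]; exact hden _) (by rw [hdE]; exact hden _) d hd'
      rw [hβl, hdE] at h3
      have h4 : (1 : ℝ) ≤ den Lam c * ((β' b : ℝ) * β' b') * (distribHaarChar E d : ℝ) := by
        exact_mod_cast h3
      refine h4.trans ?_
      gcongr
    · intro p hp p' hp' hpp
      obtain ⟨b, hb, rfl⟩ := Finset.mem_image.1 hp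
      obtain ⟨b', hb', rfl⟩ := Finset.mem_image.1 hp'
      have hb1 := hbs b (Finset.mem_filter.1 hb).1
      have hb1' := hbs b' (Finset.mem_filter.1 hb').1
      have h2 : star b - star b' = v * (u * star b - u * star b') := by
        rw [mul_sub, ← mul_assoc, ← mul_assoc, h.vu, hb1.1, hb1'.1]
      have h3 : star b - star b' ∈ Lam := by
        rw [h2]
        exact Lam.mul_mem h.hv hpp
      have h4 := hst _ h3
      rw [star_sub, star_star, star_star] at h4
      rw [hinc b (Finset.mem_filter.1 hb).1 b' (Finset.mem_filter.1 hb').1 h4]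
  have hcount : ∀ Q, (1 : ℝ) ≤ Q → ((P.filter (fun b => γ b ≤ Q)).card : ℝ) ≤
      2 * (C * (den Lam c : ℝ) ^ (1 / 2 : ℝ)) * Q ^ (1 : ℝ) := by
    intro Q hQ
    have hsub : P.filter (fun b => γ b ≤ Q) ⊆
        P.filter (fun b => (β b : ℝ) ≤ Q) ∪ P.filter (fun b => (β' b : ℝ) ≤ Q) := by
      intro b hb
      obtain ⟨hb1, hb2⟩ := Finset.mem_filter.1 hb
      rw [Finset.mem_union, Finset.mem_filter, Finset.mem_filter]
      by_contra hcon
      push Not at hcon
      have h1 := hcon.1 hb1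
      have h2 := hcon.2 hb1
      have h3 : γ b * γ b = (β b : ℝ) * β' b := Real.mul_self_sqrt (by positivity)
      have h4 : γ b * γ b ≤ Q * Q := mul_le_mul hb2 hb2 (by linarith [hγ1 b]) (by linarith)
      nlinarith
    have h1 : ((P.filter (fun b => γ b ≤ Q)).card : ℝ) ≤
        ((P.filter (fun b => (β b : ℝ) ≤ Q)).card : ℝ) +
          ((P.filter (fun b => (β' b : ℝ) ≤ Q)).card : ℝ) := by
      have := (Finset.card_le_card hsub).trans (Finset.card_union_le _ _)
      exact_mod_cast this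
    have h2 := hcnt1 Q hQ
    have h3 := hcnt2 Q hQ
    rw [Real.rpow_one]
    linarith
  have hmain := dyadic P γ (m := 1) (D := 2 * (C * (den Lam c : ℝ) ^ (1 / 2 : ℝ))) (θ := 1)
    (x := 2 * x - 1 / 2) one_pos (fun b _ => hγ1 b) (by positivity) (by norm_num) hcount
    (by linarith)
  have hρ : (2 : ℝ) ^ (1 - (2 * x - 1 / 2)) ≤ 2 ^ (-(1 / 2) : ℝ) :=
    Real.rpow_le_rpow_of_exponent_le one_le_two (by linarith)
  have hρ1 : (2 : ℝ) ^ (-(1 / 2) : ℝ) < 1 := Real.rpow_lt_one_of_one_lt_of_neg one_lt_two (by norm_num)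
  have hexp : ∀ b : A, γ b ^ (1 / 2 - 2 * x) = γ b ^ (-(2 * x - 1 / 2)) := fun b => by
    congr 1
    ring
  calc ∑ b ∈ P, γ b ^ (1 / 2 - 2 * x) = ∑ b ∈ P, γ b ^ (-(2 * x - 1 / 2)) :=
        Finset.sum_congr rfl fun b _ => hexp b
    _ ≤ _ := hmain
    _ ≤ 2 * (C * (den Lam c : ℝ) ^ (1 / 2 : ℝ)) * 2 ^ (1 : ℝ) * 1 ^ (1 - (2 * x - 1 / 2)) /
          (1 - 2 ^ (-(1 / 2) : ℝ)) :=
        div_le_div_of_nonneg_left (by positivity) (by linarith) (by linarith)
    _ = _ := by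
        rw [Real.one_rpow]
        ring

include hj in
/-- outer sum -/
theorem sum_c (hΛ : LRing (Lam.map j)) (hden : ∀ y : A, den Lam y ≠ 0) {e f u v : A}
    (h : Mat2 Lam e f u v) (hCc : CountP j Lam {x | star x = x ∧ e * x = x} f (1 / 4)) :
    ∃ C : ℝ, 0 ≤ C ∧ ∀ x : ℝ, 1 < x → x ≤ 2 → ∀ P : Finset A,
      (∀ c ∈ P, star c = c ∧ e * c = c) → (∀ c ∈ P, ∀ c' ∈ P, c - c' ∈ Lam → c = c') →
      ∑ c ∈ P, (den Lam c : ℝ) ^ (1 / 2 - x) ≤ C / (x - 1) := by
  classical
  obtain ⟨C, hC0, hC⟩ := hCc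
  refine ⟨2 * (C * 2 ^ (1 / 2 : ℝ)), by positivity, ?_⟩
  intro x hx hx2 P hP hinc
  set Λ := Lam.map j with hΛdef
  have hdE : ∀ y : A, den Λ (j y) = den Lam y := fun y => den_map j hj Lam y
  have hc1 : ∀ c : A, (1 : ℝ) ≤ den Lam c := fun c => by exact_mod_cast den_one_le (hden c)
  have hfE : j f ∈ Λ := ⟨f, h.hf, rfl⟩
  have hcount : ∀ Q, (1 : ℝ) ≤ Q → ((P.filter (fun c => (den Lam c : ℝ) ≤ Q)).card : ℝ) ≤
      C * Q ^ (1 / 2 : ℝ) := by
    intro Q hQ
    have h1 := hC (Q * Q) (by nlinarith) (P.filter (fun c => (den Lam c : ℝ) ≤ Q))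
      (fun p hp => hP p (Finset.mem_filter.1 hp).1) ?_
      (fun p hp p' hp' => hinc p (Finset.mem_filter.1 hp).1 p' (Finset.mem_filter.1 hp').1)
    · refine h1.trans (le_of_eq ?_)
      have h2 : (Q * Q) ^ (1 / 4 : ℝ) = Q ^ (1 / 2 : ℝ) := by
        rw [← sq, ← Real.rpow_natCast, ← Real.rpow_mul (by linarith)]
        norm_num
      rw [h2]
    · intro p hp p' hp' l hl hl' hne d hd
      rw [Finset.mem_filter] at hp hp'
      have hdl : den Lam (p' - l) = den Lam p' := by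
        rw [sub_eq_add_neg, den_add (Lam.neg_mem hl)]
      have h3 := spacing_c hΛ hfE (c := j p) (c' := j (p' - l)) (by rw [hdE]; exact hden _)
        (by rw [hdE]; exact hden _) d (by
          rw [hd, ← map_sub, ← map_add]
          congr 1
          abel)
      rw [hdE, hdE, hdl] at h3
      have h4 : (1 : ℝ) ≤ den Lam p * den Lam p' * (distribHaarChar E d : ℝ) := by exact_mod_cast h3
      refine h4.trans ?_
      have h5 := hp.2
      have h6 := hp'.2
      gcongr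
  have hmain := dyadic P (fun c => (den Lam c : ℝ)) (m := 1) (D := C) (θ := 1 / 2)
    (x := x - 1 / 2) one_pos (fun c _ => hc1 c) hC0 (by norm_num) hcount (by linarith)
  have hexp : ∀ c : A, (den Lam c : ℝ) ^ (1 / 2 - x) = (den Lam c : ℝ) ^ (-(x - 1 / 2)) :=
    fun c => by
      congr 1
      ring
  have hB : (2 : ℝ) ^ (1 / 2 - (x - 1 / 2)) ≤ 1 - (x - 1) / 2 := by
    have h1 := rpow_one_add_le_one_add_mul_self (s := -(1 / 2)) (by norm_num) (p := x - 1)
      (by linarith) (by linarith)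
    have h2 : (2 : ℝ) ^ (1 / 2 - (x - 1 / 2)) = (1 + -(1 / 2)) ^ (x - 1) := by
      have h3 : (1 : ℝ) + -(1 / 2) = 2⁻¹ := by norm_num
      rw [h3, Real.inv_rpow zero_le_two, ← Real.rpow_neg zero_le_two]
      congr 1
      ring
    rw [h2]
    linarith
  have hx1 : 0 < (x - 1) / 2 := by linarith
  calc ∑ c ∈ P, (den Lam c : ℝ) ^ (1 / 2 - x) = ∑ c ∈ P, (den Lam c : ℝ) ^ (-(x - 1 / 2)) :=
        Finset.sum_congr rfl fun c _ => hexp c
    _ ≤ _ := hmain
    _ ≤ C * 2 ^ (1 / 2 : ℝ) * 1 ^ (1 / 2 - (x - 1 / 2)) / ((x - 1) / 2) :=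
        div_le_div_of_nonneg_left (by positivity) hx1 (by linarith)
    _ = _ := by
        rw [Real.one_rpow]
        field_simp

include hj in
/-- **Total mass** of the symmetric elements modulo the order. -/
theorem mass_of_counts (hΛ : LRing (Lam.map j)) (hden : ∀ y : A, den Lam y ≠ 0) {e f u v : A}
    (h : Mat2 Lam e f u v) (hst : ∀ x ∈ Lam, star x ∈ Lam)
    (hCa : CountP j Lam {x | star x = x ∧ f * x = x} e (1 / 4))
    (hCb : CountP j Lam {x | e * x = x ∧ x * e = x} f (1 / 2))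
    (hCc : CountP j Lam {x | star x = x ∧ e * x = x} f (1 / 4)) :
    ∃ C : ℝ, 0 ≤ C ∧ ∀ x : ℝ, 1 < x → x ≤ 2 → ∀ F : Finset A, (∀ s ∈ F, star s = s) →
      (∀ s ∈ F, ∀ t ∈ F, s - t ∈ Lam → s = t) →
      ∑ s ∈ F, (den Lam s : ℝ) ^ (-x) ≤ C / (x - 1) := by
  classical
  obtain ⟨Ca, hCa0, hCa⟩ := sum_a j hj hΛ hden h hCa
  obtain ⟨Cb, hCb0, hCb⟩ := sum_b j hj hΛ hden h hst hCb
  obtain ⟨Cc, hCc0, hCc⟩ := sum_c j hj hΛ hden h hCc
  refine ⟨Ca * Cb * Cc, by positivity, fun x hx hx2 F hF hinc => ?_⟩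
  -- representatives
  have hrep : ∀ V : AddSubgroup A, ∃ r : A → A, (∀ x ∈ V, r x ∈ V ∧ x - r x ∈ Lam) ∧
      ∀ x ∈ V, ∀ x' ∈ V, r x - r x' ∈ Lam → r x = r x' := by
    intro V
    set I : AddSubgroup A := Lam.toAddSubgroup ⊓ V with hI
    have h1 : ∀ x : A, x - ((x : A ⧸ I).out) ∈ I := by
      intro x
      have h2 : (((x : A ⧸ I).out : A) : A ⧸ I) = (x : A ⧸ I) := Quotient.out_eq _
      rw [QuotientAddGroup.eq] at h2
      rwa [neg_add_eq_sub] at h2
    refine ⟨fun x => (x : A ⧸ I).out, fun x hx => ⟨?_, (h1 x).1⟩, fun x hx x' hx' hxx => ?_⟩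
    · have h2 : (x : A ⧸ I).out = x - (x - (x : A ⧸ I).out) := by abel
      change (x : A ⧸ I).out ∈ V
      rw [h2]
      exact sub_mem hx (h1 x).2
    · have h3 : (x : A ⧸ I) = (x' : A ⧸ I) := by
        rw [QuotientAddGroup.eq]
        refine ⟨?_, V.add_mem (V.neg_mem hx) hx'⟩
        have h4 : -x + x' = -(x - (x : A ⧸ I).out) + (x' - (x' : A ⧸ I).out) -
          ((x : A ⧸ I).out - (x' : A ⧸ I).out) := by abel
        change -x + x' ∈ Lam
        rw [h4]
        exact Lam.sub_mem (Lam.add_mem (Lam.neg_mem (h1 x).1) (h1 x').1) hxx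
      simp only [h3]
  let Vc : AddSubgroup A := {
    carrier := {x | star x = x ∧ e * x = x}
    zero_mem' := ⟨star_zero _, mul_zero _⟩
    add_mem' := fun {a b} ha hb => ⟨by rw [star_add, ha.1, hb.1], by rw [mul_add, ha.2, hb.2]⟩
    neg_mem' := fun {a} ha => ⟨by rw [star_neg, ha.1], by rw [mul_neg, ha.2]⟩ }
  let Va : AddSubgroup A := {
    carrier := {x | star x = x ∧ f * x = x}
    zero_mem' := ⟨star_zero _, mul_zero _⟩
    add_mem' := fun {a b} ha hb => ⟨by rw [star_add, ha.1, hb.1], by rw [mul_add, ha.2, hb.2]⟩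
    neg_mem' := fun {a} ha => ⟨by rw [star_neg, ha.1], by rw [mul_neg, ha.2]⟩ }
  let Vb : AddSubgroup A := {
    carrier := {x | e * x = x ∧ x * f = x}
    zero_mem' := ⟨mul_zero _, zero_mul _⟩
    add_mem' := fun {a b} ha hb => ⟨by rw [mul_add, ha.1, hb.1], by rw [add_mul, ha.2, hb.2]⟩
    neg_mem' := fun {a} ha => ⟨by rw [mul_neg, ha.1], by rw [neg_mul, ha.2]⟩ }
  obtain ⟨rc, hrc, hrc'⟩ := hrep Vc
  obtain ⟨ra, hra, hra'⟩ := hrep Va
  obtain ⟨rb, hrb, hrb'⟩ := hrep Vb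
  have hc : ∀ y ∈ F, e * y * e ∈ Vc := fun y hy =>
    ⟨by rw [star_mul, star_mul, h.se, hF y hy, mul_assoc], by rw [← mul_assoc, ← mul_assoc, h.ee]⟩
  have ha : ∀ y ∈ F, f * y * f ∈ Va := fun y hy =>
    ⟨by rw [star_mul, star_mul, h.sf, hF y hy, mul_assoc], by rw [← mul_assoc, ← mul_assoc, h.ff]⟩
  have hb : ∀ y ∈ F, e * y * f ∈ Vb := fun y hy =>
    ⟨by rw [← mul_assoc, ← mul_assoc, h.ee], by rw [mul_assoc, h.ff]⟩
  set Φ : A → A × A × A := fun y => (rc (e * y * e), rb (e * y * f), ra (f * y * f)) with hΦ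
  set Ψ : A × A × A → A := fun p => p.1 + p.2.1 + star p.2.1 + p.2.2 with hΨ
  have hyΨ : ∀ y ∈ F, y - Ψ (Φ y) ∈ Lam := by
    intro y hy
    have h1 := (hrc _ (hc y hy)).2
    have h2 := (hra _ (ha y hy)).2
    have h3 := (hrb _ (hb y hy)).2
    have h4 := hst _ h3
    rw [star_sub, star_mul, star_mul, h.sf, h.se, hF y hy, ← mul_assoc] at h4
    have h5 : y = e * y * e + e * y * f + f * y * e + f * y * f := by
      calc y = (e + f) * y * (e + f) := by rw [h.ef, one_mul, mul_one]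
        _ = _ := by noncomm_ring
    have h6 : y - Ψ (Φ y) = (e * y * e - rc (e * y * e)) + (e * y * f - rb (e * y * f)) +
        (f * y * e - star (rb (e * y * f))) + (f * y * f - ra (f * y * f)) := by
      have h7 : ∀ P Q R S p q r s : A, (P + Q + R + S) - (p + q + r + s) =
          (P - p) + (Q - q) + (R - r) + (S - s) := by
        intros
        abel
      have h8 := h7 (e * y * e) (e * y * f) (f * y * e) (f * y * f) (rc (e * y * e))
        (rb (e * y * f)) (star (rb (e * y * f))) (ra (f * y * f))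
      rw [← h5] at h8
      exact h8
    rw [h6]
    exact Lam.add_mem (Lam.add_mem (Lam.add_mem h1 h3) h4) h2
  have hden' : ∀ y ∈ F, den Lam y = den Lam (Ψ (Φ y)) := by
    intro y hy
    have h1 : y = Ψ (Φ y) + (y - Ψ (Φ y)) := by abel
    conv_lhs => rw [h1]
    exact den_add (hyΨ y hy) _
  have hinj : Set.InjOn Φ F := by
    intro y hy y' hy' hyy
    refine hinc y hy y' hy' ?_
    have h1 : y - y' = (y - Ψ (Φ y)) - (y' - Ψ (Φ y')) := by
      rw [hyy]
      abel
    rw [h1]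
    exact Lam.sub_mem (hyΨ y hy) (hyΨ y' hy')
  set Fc := F.image fun y => rc (e * y * e) with hFc
  set Fb := F.image fun y => rb (e * y * f) with hFb
  set Fa := F.image fun y => ra (f * y * f) with hFa
  have hsub : F.image Φ ⊆ Fc ×ˢ Fb ×ˢ Fa := by
    intro p hp
    obtain ⟨y, hy, rfl⟩ := Finset.mem_image.1 hp
    rw [Finset.mem_product, Finset.mem_product]
    exact ⟨Finset.mem_image_of_mem _ hy, Finset.mem_image_of_mem _ hy, Finset.mem_image_of_mem _ hy⟩
  have hFc1 : ∀ c ∈ Fc, star c = c ∧ e * c = c := by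
    intro c hc1
    obtain ⟨y, hy, rfl⟩ := Finset.mem_image.1 hc1
    exact (hrc _ (hc y hy)).1
  have hFa1 : ∀ c ∈ Fa, star c = c ∧ f * c = c := by
    intro c hc1
    obtain ⟨y, hy, rfl⟩ := Finset.mem_image.1 hc1
    exact (hra _ (ha y hy)).1
  have hFb1 : ∀ c ∈ Fb, e * c = c ∧ c * f = c := by
    intro c hc1
    obtain ⟨y, hy, rfl⟩ := Finset.mem_image.1 hc1
    exact (hrb _ (hb y hy)).1
  have hFc2 : ∀ c ∈ Fc, ∀ c' ∈ Fc, c - c' ∈ Lam → c = c' := by
    intro c hc1 c' hc1'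
    obtain ⟨y, hy, rfl⟩ := Finset.mem_image.1 hc1
    obtain ⟨y', hy', rfl⟩ := Finset.mem_image.1 hc1'
    exact hrc' _ (hc y hy) _ (hc y' hy')
  have hFa2 : ∀ c ∈ Fa, ∀ c' ∈ Fa, c - c' ∈ Lam → c = c' := by
    intro c hc1 c' hc1'
    obtain ⟨y, hy, rfl⟩ := Finset.mem_image.1 hc1
    obtain ⟨y', hy', rfl⟩ := Finset.mem_image.1 hc1'
    exact hra' _ (ha y hy) _ (ha y' hy')
  have hFb2 : ∀ c ∈ Fb, ∀ c' ∈ Fb, c - c' ∈ Lam → c = c' := by
    intro c hc1 c' hc1'
    obtain ⟨y, hy, rfl⟩ := Finset.mem_image.1 hc1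
    obtain ⟨y', hy', rfl⟩ := Finset.mem_image.1 hc1'
    exact hrb' _ (hb y hy) _ (hb y' hy')
  have hd1 : ∀ c : A, (0 : ℝ) < den Lam c := fun c => by
    exact_mod_cast Nat.pos_of_ne_zero (hden c)
  calc ∑ s ∈ F, (den Lam s : ℝ) ^ (-x) = ∑ s ∈ F, (den Lam (Ψ (Φ s)) : ℝ) ^ (-x) :=
        Finset.sum_congr rfl fun y hy => by rw [hden' y hy]
    _ = ∑ p ∈ F.image Φ, (den Lam (Ψ p) : ℝ) ^ (-x) :=
        (Finset.sum_image (f := fun p => (den Lam (Ψ p) : ℝ) ^ (-x)) hinj).symm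
    _ ≤ ∑ p ∈ Fc ×ˢ Fb ×ˢ Fa, (den Lam (Ψ p) : ℝ) ^ (-x) :=
        Finset.sum_le_sum_of_subset_of_nonneg hsub fun p _ _ => by positivity
    _ = ∑ c ∈ Fc, ∑ b ∈ Fb, ∑ a ∈ Fa, (den Lam (c + b + star b + a) : ℝ) ^ (-x) := by
        rw [Finset.sum_product]
        refine Finset.sum_congr rfl fun c _ => ?_
        rw [Finset.sum_product]
    _ ≤ ∑ c ∈ Fc, ∑ b ∈ Fb, Ca * (den Lam c : ℝ) ^ (-x) *
          (√((bet (Lam.map j) (j c) (j b) : ℝ) * bet' (Lam.map j) (j c) (j (star b)))) ^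
            (1 / 2 - 2 * x) := by
        refine Finset.sum_le_sum fun c hc1 => Finset.sum_le_sum fun b hb1 => ?_
        exact hCa x hx.le c b (hFc1 c hc1).1 (hFc1 c hc1).2 (hFb1 b hb1).1 (hFb1 b hb1).2 Fa hFa1 hFa2
    _ = ∑ c ∈ Fc, Ca * (den Lam c : ℝ) ^ (-x) * ∑ b ∈ Fb,
          (√((bet (Lam.map j) (j c) (j b) : ℝ) * bet' (Lam.map j) (j c) (j (star b)))) ^
            (1 / 2 - 2 * x) := by
        refine Finset.sum_congr rfl fun c _ => ?_
        rw [Finset.mul_sum]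
    _ ≤ ∑ c ∈ Fc, Ca * (den Lam c : ℝ) ^ (-x) * (Cb * (den Lam c : ℝ) ^ (1 / 2 : ℝ)) := by
        refine Finset.sum_le_sum fun c _ => mul_le_mul_of_nonneg_left ?_ (by positivity)
        exact hCb x hx.le c Fb hFb1 hFb2
    _ = Ca * Cb * ∑ c ∈ Fc, (den Lam c : ℝ) ^ (1 / 2 - x) := by
        rw [Finset.mul_sum]
        refine Finset.sum_congr rfl fun c _ => ?_
        have h1 : (den Lam c : ℝ) ^ (1 / 2 - x) =
            (den Lam c : ℝ) ^ (-x) * (den Lam c : ℝ) ^ (1 / 2 : ℝ) := by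
          rw [← Real.rpow_add (hd1 c)]
          congr 1
          ring
        rw [h1]
        ring
    _ ≤ Ca * Cb * (Cc / (x - 1)) :=
        mul_le_mul_of_nonneg_left (hCc x hx hx2 Fc hFc1 hFc2) (by positivity)
    _ = _ := by ring

end Main

end Vale.Agent.P011.H40
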