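import Vale.Agent.P011.H40.CosW
import Vale.Agent.P011.H973.LocalPkg
import Vale.Agent.P011.H152.CountsM2
import Vale.Agent.P011.H704.CharNontriv
import Vale.Agent.P011.H704.FourierZero
import Vale.Agent.P011.H74.UprFF
import Vale.Agent.P011.H40.Mass
import Vale.Agent.P011.H401.Peirce
import Vale.Agent.P011.H973.LowFF
import Vale.Agent.P011.H271.NeRing
import Mathlib.FieldTheory.Finite.Basic

/-!
# The coset bound for two by two matrix algebras over function fields
-/

set_option autoImplicit false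
set_option linter.unusedSectionVars false

open Module Polynomial IsDedekindDomain HeightOneSpectrum Filter Topology MeasureTheory

namespace Vale.Agent.P011.H40

open Vale.Agent.P011.H973 Vale.Agent.P011.H74 Vale.Agent.P011.H380.UpBC Vale.Agent.P011.H699
  Vale.Agent.P011.H738 Vale.Agent.P011.H271

/-- Only finitely many primes have a small finite residue field. -/
theorem few_of {P : Type*} [CommRing P] [IsDedekindDomain P] {a : P}
    (ha : ∀ j, 2 ≤ j → a ^ j ≠ a) (m : ℕ) : {v : HeightOneSpectrum P |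
      Finite (P ⧸ v.asIdeal) ∧ Nat.card (P ⧸ v.asIdeal) ≤ m}.Finite := by
  classical
  set b : P := ∏ j ∈ Finset.Icc 2 m, (a ^ j - a) with hb
  have hb0 : b ≠ 0 := Finset.prod_ne_zero_iff.2 fun j hj =>
    sub_ne_zero.2 (ha j (Finset.mem_Icc.1 hj).1)
  have h1 : Ideal.span {b} ≠ 0 := by
    rw [Ne, Ideal.zero_eq_bot, Ideal.span_singleton_eq_bot]
    exact hb0
  refine (Ideal.finite_factors h1).subset fun v hv => ?_
  obtain ⟨hfin, hcard⟩ := hv
  show v.asIdeal ∣ Ideal.span {b}
  rw [Ideal.dvd_span_singleton]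
  have hmax : v.asIdeal.IsMaximal := v.isMaximal
  let : Field (P ⧸ v.asIdeal) := Ideal.Quotient.field _
  have : Fintype (P ⧸ v.asIdeal) := Fintype.ofFinite _
  set q := Nat.card (P ⧸ v.asIdeal) with hq
  have hq2 : 2 ≤ q := Finite.one_lt_card
  have h2 : a ^ q - a ∈ v.asIdeal := by
    rw [← Ideal.Quotient.eq_zero_iff_mem, map_sub, map_pow, hq, Nat.card_eq_fintype_card,
      FiniteField.pow_card, sub_self]
  rw [hb, ← Finset.mul_prod_erase _ _ (Finset.mem_Icc.2 ⟨hq2, hcard⟩)]
  exact Ideal.mul_mem_right _ _ h2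

section places

variable {F : Type} [Field F] [Finite F] {k : Type} [Field k] [Algebra F[X] k]
  [Algebra (RatFunc F) k] [IsScalarTower F[X] (RatFunc F) k] [FiniteDimensional (RatFunc F) k]
  [Algebra.IsSeparable (RatFunc F) k]

variable (F k) in
theorem few_OO (m : ℕ) : {v : HeightOneSpectrum (OO F k) |
    Finite (OO F k ⧸ v.asIdeal) ∧ Nat.card (OO F k ⧸ v.asIdeal) ≤ m}.Finite := by
  have hinj : Function.Injective (algebraMap F[X] k) :=
    (faithfulSMul_iff_algebraMap_injective _ _).1 (faithful F k)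
  refine few_of (a := algebraMap F[X] (OO F k) X) (fun j hj h => ?_) m
  have h1 := congrArg (algebraMap (OO F k) k) h
  rw [map_pow, ← IsScalarTower.algebraMap_apply, ← map_pow] at h1
  have h2 := hinj h1
  have h3 := congrArg natDegree h2
  rw [natDegree_X_pow, natDegree_X] at h3
  omega

variable [GFF k] {K A : Type} [Field K] [StarRing K] [Ring A] [StarRing A] [Algebra k K]
  [Algebra k A] [Algebra K A] [IsScalarTower k K A] [StarModule K A] {n N : ℕ}

theorem cos_str [StarLinR k A] (hA : Anis k K A n) (hn : n ≠ 0) (B : Basis (Fin N) k A)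
    {S : Finset (Place k)} (hS : ∀ v : Place k, 1 < v.abv (tt F : k) → v ∈ S)
    (hSne : S.Nonempty) {q : A} (hq : ∀ x, q * x = x * q) (hq1 : q + star q = 1)
    (hqL : q ∈ ordO B (OSF S)) {C : ℝ} (hC : 0 ≤ C)
    (hmass : ∀ x : ℝ, 1 < x → x ≤ 2 → ∀ F : Finset A, (∀ s ∈ F, star s = s) →
      (∀ s ∈ F, ∀ t ∈ F, s - t ∈ ordO B (OSF S) → s = t) →
      ∑ s ∈ F, (H699.den (ordO B (OSF S)) s : ℝ) ^ (-x) ≤ C / (x - 1)) :
    H74.Cos (bcrT B (KSF S)) (ordO B (OSF S)) := by
  classical
  have hst := H519.star_smul_of_anis hA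
  have := hA.simple
  have := hA.central
  have := finite_classGroup F k
  have := KSF_nontrivial hSne
  have hE : H973.HasEuler (OO F k) := H973.hasEuler_ff F (OO F k)
  have hO := OO_le_OSF hS
  set B₁ : Set (HeightOneSpectrum (OO F k)) := {w | plOf w ∈ S} with hB₁
  have hfin : B₁.Finite := S.finite_toSet.preimage plOf_injective.injOn
  have hint : ∀ w : HeightOneSpectrum (OO F k), w ∉ B₁ → ∀ z ∈ OSF S, z ∈ hosV k w := by
    intro w hw z hz
    rw [← plOf_le_iff]
    exact hz _ hw
  have hOO : ordA B (imR (OO F k) k) mem_imR ≤ ordA B (OSF S) hO := by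
    have h1 : imR (OO F k) k ≤ OSF S := by
      rintro _ ⟨r, rfl⟩
      exact hO r
    intro x hx
    exact ordO_mono B h1 hx
  have hstO : ∀ x ∈ ordA B (imR (OO F k) k) mem_imR,
      star x ∈ ordA B (imR (OO F k) k) mem_imR := by
    rintro x ⟨h1, h2⟩
    exact ⟨h2, by rwa [star_star]⟩
  have hsk : ∀ c : k, star (algebraMap k A c) = algebraMap k A c := fun c => by
    rw [Algebra.algebraMap_eq_smul_one, hst, star_one]
  have hne : ∃ z : K, star (algebraMap K A z) ≠ algebraMap K A z := by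
    obtain ⟨z, hz⟩ := hA.star_ne
    refine ⟨z, fun h => hz ?_⟩
    have h1 : star (algebraMap K A z) = algebraMap K A (star z) := by
      rw [Algebra.algebraMap_eq_smul_one, star_smul, star_one, Algebra.algebraMap_eq_smul_one]
    rw [h1] at h
    exact (algebraMap K A).injective h
  have hstP : ∀ (r : OO F k) (x : A), star (r • x) = r • star x := fun r x => by
    rw [← algebraMap_smul k r x, hst, algebraMap_smul]
  set O' := ordA B (OSF S) hO with hO'
  have hsub : O'.toSubring = ordO B (OSF S) := ordA_toSubring B hO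
  have hfrac : ∀ x : A, ∃ a : OO F k, a ≠ 0 ∧ a • x ∈ O' := fun x => by
    obtain ⟨a, ha, h⟩ := ordA_frac (R := OO F k) B x
    exact ⟨a, ha, hOO h⟩
  obtain ⟨Bd, hBd, hB₁Bd, hloc⟩ := local_pkg (K := K)
    (H519.quad hA.fixed hA.star_ne).2.2 hsk hstP hne hn hA.finrank_eq
    (O := ordA B (imR (OO F k) k) mem_imR) hstO (ordA_fg B) (ordA_frac B)
    (O' := O') hOO (ordA_loc B hO hint) hfin (fun t ht => ht) (few_OO F k)
  obtain ⟨d, -, hden⟩ := exists_denR B (OSF S) (OSF_den hSne)
  have H : IsOrdR (bcrT B (KSF S)).a (OSF S) O'.toSubring := by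
    rw [hsub]
    exact (isOrdR_ordO B hden).1
  have hG := good_KSF hSne
  have hmT : ∀ x : ℝ, 1 < x → x ≤ 2 →
      Summable (wtT hstP O' x) ∧ ∑' t, wtT hstP O' x t ≤ C / (x - 1) := fun x hx hx2 =>
    mass_TM hstP (hmass x hx hx2)
  have hintP : ∀ z ∈ OSF S, ∀ v : HeightOneSpectrum (OO F k), v ∉ B₁ →
      ∃ t ∉ v.asIdeal, ∃ r : OO F k, algebraMap (OO F k) k r = algebraMap (OO F k) k t * z := by
    intro z hz v hv
    obtain ⟨a, s, hs⟩ := exists_primeCompl_mul_eq_of_integer v z (hint v hv z hz)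
    exact ⟨s, s.2, a, by rw [← hs, mul_comm]⟩
  rw [← hsub]
  refine cos_of_decay (bcrT B (KSF S)) hG hstP H hq hq1 hC hmT fun W hW χ hχ hχ1 hχW hχne => ?_
  refine fourier_zero hE hstP hfrac hn hmT hBd hloc hχ hχ1 ?_
  have h1 := char_nontriv (bcrT B (KSF S)) hG hstP H
    (fun c hc y hy => by
      have h2 := (ordO B (OSF S)).mul_mem (smul_one_mem_ordO B hc) hy
      rw [smul_mul_assoc, one_mul] at h2
      exact h2) hq hq1 hqL hintP (hW.mem_nhds W.zero_mem) hχ hχ1 hχW hχne
  refine h1.subset ?_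
  rintro v ⟨hv, hv'⟩
  exact ⟨fun h => hv (hB₁Bd h), hv'⟩

end places

section final

variable {k K A : Type} [Field k] [GFF k] [Field K] [StarRing K] [Ring A] [StarRing A]
  [Algebra k K] [Algebra k A] [Algebra K A] [IsScalarTower k K A] [StarModule K A] {n N : ℕ}

theorem countable_order [StarLinR k A] (B : Basis (Fin N) k A) (O : Subring k) :
    Countable (ordO B O) := by
  have hck : Countable k := countable_GFF k
  have hcA : Countable A := B.equivFun.toEquiv.countable_iff.2 inferInstance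
  exact inferInstance

/-- Total mass for large `S`. -/
theorem mass_ff [StarLinR k A] (hA : Anis k K A n) (hn : n ≠ 0)
    (hdiv : ∃ x : A, x ≠ 0 ∧ ¬ IsUnit x) (B : Basis (Fin N) k A) :
    ∃ S₁ : Finset (Place k), ∀ S : Finset (Place k), S₁ ⊆ S → S.Nonempty →
      ∃ C : ℝ, 0 ≤ C ∧ ∀ x : ℝ, 1 < x → x ≤ 2 → ∀ F : Finset A, (∀ s ∈ F, star s = s) →
        (∀ s ∈ F, ∀ t ∈ F, s - t ∈ ordO B (OSF S) → s = t) →
        ∑ s ∈ F, (H699.den (ordO B (OSF S)) s : ℝ) ^ (-x) ≤ C / (x - 1) := by
  classical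
  obtain ⟨e, u, v, hee, hse, heu, hue, hev, hve, huv, hvu, hunit⟩ :=
    H401.exists_peirce hA hn hdiv
  obtain ⟨w, hw⟩ := hA.star_ne
  have hstA : star (algebraMap K A w) = algebraMap K A (star w) := by
    rw [Algebra.algebraMap_eq_smul_one, Algebra.algebraMap_eq_smul_one, star_smul, star_one]
  have hwu : IsUnit (algebraMap K A w - star (algebraMap K A w)) := by
    rw [hstA, ← map_sub]
    exact (IsUnit.mk0 _ (sub_ne_zero.2 (Ne.symm hw))).map (algebraMap K A)
  obtain ⟨S₁, -, hS₁⟩ := H271.NeRing.exists_SFR B ({e, 1 - e, u, v} : Finset A) ∅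
  refine ⟨S₁, fun S hS hSne => ?_⟩
  have hmem := hS₁ S hS
  have := KSF_nontrivial hSne
  have hG := good_KSF hSne
  have := hA.simple
  have h10 : (1 : A) ≠ 0 := one_ne_zero
  have he0 : e ≠ 0 := by
    rintro rfl
    rw [mul_zero] at hve
    rw [← hve, zero_mul, sub_zero] at hvu
    exact h10 hvu.symm
  have hcL := countable_order B (OSF S)
  obtain ⟨d, -, hden⟩ := exists_denR B (OSF S) (OSF_den hSne)
  have H : IsOrdR (bcrT B (KSF S)).a (OSF S) (ordO B (OSF S)) := (isOrdR_ordO B hden).1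
  have hM : Mat2 (ordO B (OSF S)) e (1 - e) u v :=
    { he := hmem e (by simp)
      hf := hmem (1 - e) (by simp)
      hu := hmem u (by simp)
      hv := hmem v (by simp)
      ef := by abel
      ee := hee
      se := hse
      eu := heu
      ve := hve
      uv := huv
      vu := hvu }
  have hlc : LocallyCompactSpace (BR B (KSF S)) := (bcrT B (KSF S)).locallyCompact
  have ht2 : T2Space (BR B (KSF S)) := (bcrT B (KSF S)).t2
  borelize (BR B (KSF S))
  obtain ⟨h1, h2, h3⟩ := counts_M2 (bcrT B (KSF S)) hG H hM he0 hunit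
    (w := algebraMap K A w) (fun x => Algebra.commutes w x) hwu
  exact mass_of_counts (bcrT B (KSF S)).j (bcrT B (KSF S)).j_inj
    (Rg.lring (bcrT B (KSF S)) hG.disc hG.coc H)
    (Rg.den_ne_zero (bcrT B (KSF S)) hG.disc hG.coc hG.frac H) hM H.star_mem h1 h2 h3

/-- **The coset bound over function fields**, for anisotropic algebras with zero divisors. -/
theorem cosF [StarLinR k A] (hA : Anis k K A n) (hn : n ≠ 0)
    (hdiv : ∃ x : A, x ≠ 0 ∧ ¬ IsUnit x) (B : Basis (Fin N) k A) :
    ∃ S₁ : Finset (Place k), ∀ S : Finset (Place k), S₁ ⊆ S → S.Nonempty →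
      H74.Cos (bcrT B (KSF S)) (ordO B (OSF S)) := by
  classical
  obtain ⟨F, hF, hFfin, φ, h1, h2⟩ := GFF.out (k := k)
  let : Algebra (RatFunc F) k := φ.toAlgebra
  let : Algebra F[X] k := (φ.comp (algebraMap F[X] (RatFunc F))).toAlgebra
  have : IsScalarTower F[X] (RatFunc F) k := IsScalarTower.of_algebraMap_eq fun _ => rfl
  have : FiniteDimensional (RatFunc F) k := h1
  have : Algebra.IsSeparable (RatFunc F) k := h2
  have ht : (tt F : k) ≠ 0 := by
    have h3 : (tt F : k) = φ (algebraMap F[X] (RatFunc F) X) := rfl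
    rw [h3, RatFunc.algebraMap_X]
    exact (_root_.map_ne_zero φ).2 RatFunc.X_ne_zero
  obtain ⟨w, hw⟩ := hA.star_ne
  have hstA : star (algebraMap K A w) = algebraMap K A (star w) := by
    rw [Algebra.algebraMap_eq_smul_one, Algebra.algebraMap_eq_smul_one, star_smul, star_one]
  have hwu : IsUnit (algebraMap K A w - star (algebraMap K A w)) := by
    rw [hstA, ← map_sub]
    exact (IsUnit.mk0 _ (sub_ne_zero.2 (Ne.symm hw))).map (algebraMap K A)
  have hfk : Module.Finite k A := Module.Finite.of_basis B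
  obtain ⟨q, hq, hq1⟩ := Rg.exists_q (k := k) (w0 := algebraMap K A w)
    (fun x => Algebra.commutes w x) hwu
  obtain ⟨S₁, hS₁⟩ := mass_ff hA hn hdiv B
  obtain ⟨S₂, -, hS₂⟩ := H271.NeRing.exists_SFR B ({q} : Finset A) ∅
  refine ⟨S₁ ∪ S₂ ∪ (place_finite ht).toFinset, fun S hS hSne => ?_⟩
  obtain ⟨C, hC, hmass⟩ := hS₁ S
    ((Finset.subset_union_left.trans Finset.subset_union_left).trans hS) hSne
  refine cos_str (F := F) hA hn B (fun v hv => hS (Finset.mem_union_right _ ?_)) hSne hq hq1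
    (hS₂ S ((Finset.subset_union_right.trans Finset.subset_union_left).trans hS) q (by simp))
    hC hmass
  rw [Set.Finite.mem_toFinset]
  exact hv.ne'

/-- **The upper bound of the height zeta function of the unitary group over function fields**, for
anisotropic algebras with zero divisors. -/
theorem uprf [StarLinR k A] (hA : Anis k K A n) (hn : n ≠ 0)
    (hdiv : ∃ x : A, x ≠ 0 ∧ ¬ IsUnit x) (B : Basis (Fin N) k A) (q : Place k) :
    H271.NeRing.UPRF B :=
  uprf_of_cos hA (cosF hA hn hdiv B) q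

end final

end Vale.Agent.P011.H40
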