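import Vale.Agent.P011.H40.Tv
import Vale.Agent.P011.H973.OrderLow
import Vale.Agent.P011.H973.LowRing
import Vale.Agent.P011.H704.Inv
import Vale.Agent.P011.H401.Triv
import Vale.Agent.P011.H74.UprCell

/-!
# The coset bound from the Fourier bound
-/

set_option autoImplicit false
set_option linter.unusedSectionVars false

open IsDedekindDomain Filter Topology MeasureTheory Module

namespace Vale.Agent.P011.H40

open Vale.Agent.P011.H973 Vale.Agent.P011.H74 Vale.Agent.P011.H380.UpBC Vale.Agent.P011.H699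

section defs
variable {k R A E ι : Type*} [Field k] [CommRing R] [TopologicalSpace R] [IsTopologicalRing R]
  [Algebra k R] [Ring A] [StarRing A] [Algebra k A] [Ring E] [StarRing E] [TopologicalSpace E]
  [IsTopologicalRing E] [Algebra R E] [Fintype ι] [DecidableEq ι] (B : BCR k R A E ι)

/-- The subgroup of the symmetric elements which are small or in the order. -/
def smallOrd (Lam : Subring A) (W : AddSubgroup E) : AddSubgroup A :=
  (Lam.toAddSubgroup ⊓ selfAdjoint A) ⊔ (W.comap (B.j : A →+ E) ⊓ selfAdjoint A)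

end defs

section omega
variable {P A : Type*} [CommRing P] [Ring A] [StarRing A] [Algebra P A]
  (hst : ∀ (r : P) (x : A), star (r • x) = r • star x) (O' : Subalgebra P A)

/-- the quotient of the symmetric elements by a subgroup -/
abbrev QS (M : AddSubgroup A) : Type _ := (selfAdjoint A) ⧸ M.addSubgroupOf (selfAdjoint A)

/-- the projection -/
noncomputable def om (M : AddSubgroup A) (hM : ∀ x ∈ O', star x = x → x ∈ M) : TM hst O' →+ QS M where
  toFun t := QuotientAddGroup.mk ⟨((t.out : SymR hst) : A), t.out.2⟩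
  map_zero' := by
    rw [QuotientAddGroup.eq_zero_iff, AddSubgroup.mem_addSubgroupOf]
    refine hM _ ?_ (((0 : TM hst O').out : SymR hst)).2
    rw [← mk_eq_zero hst]
    exact Quotient.out_eq _
  map_add' t t' := by
    rw [← QuotientAddGroup.mk_add, QuotientAddGroup.eq, AddSubgroup.mem_addSubgroupOf]
    have h1 : ∀ t : TM hst O', (Submodule.Quotient.mk (t.out : SymR hst) : TM hst O') = t :=
      fun t => Quotient.out_eq t
    refine hM _ ?_ ?_
    · have h2 : (Submodule.Quotient.mk (t.out + t'.out : SymR hst) : TM hst O') =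
          Submodule.Quotient.mk ((t + t').out : SymR hst) := by
        rw [Submodule.Quotient.mk_add, h1, h1, h1]
      rw [mk_eq_mk] at h2
      convert h2 using 1
      show -(((t + t').out : SymR hst) : A) + ((t.out : SymR hst) + (t'.out : SymR hst) : A) = _
      rw [Submodule.coe_add]
      abel
    · exact ((-(⟨(((t + t').out : SymR hst) : A), (t + t').out.2⟩ : selfAdjoint A) +
        (⟨(t.out : SymR hst), t.out.2⟩ + ⟨(t'.out : SymR hst), t'.out.2⟩ : selfAdjoint A)) :
          selfAdjoint A).2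

variable {O'}

theorem om_mk {M : AddSubgroup A} (hM : ∀ x ∈ O', star x = x → x ∈ M) (y : SymR hst) :
    om hst O' M hM (Submodule.Quotient.mk y) =
      (QuotientAddGroup.mk (⟨(y : A), y.2⟩ : selfAdjoint A) : QS M) := by
  show (QuotientAddGroup.mk _ : QS M) = _
  rw [QuotientAddGroup.eq, AddSubgroup.mem_addSubgroupOf]
  refine hM _ ?_ ?_
  · have h := out_sub (O := O') hst y
    have h2 := O'.neg_mem h
    convert h2 using 1
    show -((((Submodule.Quotient.mk y : TM hst O').out : SymR hst) : A)) + (y : A) = _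
    abel
  · exact (-(⟨(((Submodule.Quotient.mk y : TM hst O').out : SymR hst) : A),
        (Submodule.Quotient.mk y : TM hst O').out.2⟩ : selfAdjoint A) + ⟨(y : A), y.2⟩).2

theorem om_surj {M : AddSubgroup A} (hM : ∀ x ∈ O', star x = x → x ∈ M) :
    Function.Surjective (om hst O' M hM) := by
  intro q
  obtain ⟨y, rfl⟩ := QuotientAddGroup.mk_surjective q
  exact ⟨Submodule.Quotient.mk (⟨(y : A), y.2⟩ : SymR hst), om_mk hst hM _⟩

end omega

section fin
variable {k R A E ι : Type*} [Field k] [CommRing R] [TopologicalSpace R] [IsTopologicalRing R]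
  [Algebra k R] [Ring A] [StarRing A] [Algebra k A] [Ring E] [StarRing E] [TopologicalSpace E]
  [IsTopologicalRing E] [Algebra R E] [Fintype ι] [DecidableEq ι] (B : BCR k R A E ι)

theorem mem_smallOrd_of_ord {Lam : Subring A} (W : AddSubgroup E) {x : A} (hx : x ∈ Lam)
    (hs : star x = x) : x ∈ smallOrd B Lam W :=
  AddSubgroup.mem_sup_left ⟨hx, hs⟩

theorem mem_smallOrd_of_small (Lam : Subring A) {W : AddSubgroup E} {x : A} (hx : B.j x ∈ W)
    (hs : star x = x) : x ∈ smallOrd B Lam W :=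
  AddSubgroup.mem_sup_right ⟨hx, hs⟩

theorem card_QS (Lam : Subring A) (W : AddSubgroup E) :
    Nat.card (QS (smallOrd B Lam W)) = cosI B Lam W := rfl

variable [Nontrivial R]

theorem finite_QS {O : Subring k} (hG : Good k R O) {Lam : Subring A} (H : IsOrdR B.a O Lam)
    {q : A} (hq : ∀ x, q * x = x * q) (hq1 : q + star q = 1) {W : AddSubgroup E}
    (hW : IsOpen (W : Set E)) : Finite (QS (smallOrd B Lam W)) := by
  obtain ⟨C0, hC0, hcov⟩ := Rg.sym_coc B hG.disc hG.coc hG.frac H hq hq1
  choose l hl hls hlC using fun s : selfAdjoint A => hcov s s.2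
  have hd : DiscreteTopology (E ⧸ W) := QuotientAddGroup.discreteTopology hW
  have hfin : ((QuotientAddGroup.mk : E → E ⧸ W) '' C0).Finite :=
    (hC0.image continuous_quotient_mk').finite_of_discrete
  let f : QS (smallOrd B Lam W) → E ⧸ W := fun t =>
    QuotientAddGroup.mk (B.j ((t.out : selfAdjoint A) - l t.out))
  have hf : ∀ t, f t ∈ ((QuotientAddGroup.mk : E → E ⧸ W) '' C0) := fun t =>
    ⟨_, hlC t.out, rfl⟩
  have hinj : Function.Injective f := by
    intro t t' h
    have h1 : B.j (-((t.out : selfAdjoint A) - l t.out) + ((t'.out : selfAdjoint A) - l t'.out)) ∈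
        W := by
      rw [map_add, map_neg]
      exact QuotientAddGroup.eq.1 h
    rw [← QuotientAddGroup.out_eq' t, ← QuotientAddGroup.out_eq' t', QuotientAddGroup.eq,
      AddSubgroup.mem_addSubgroupOf]
    have ht : star ((t.out : selfAdjoint A) : A) = (t.out : selfAdjoint A) := t.out.2
    have ht' : star ((t'.out : selfAdjoint A) : A) = (t'.out : selfAdjoint A) := t'.out.2
    have h2 := mem_smallOrd_of_small B Lam h1 (by
      rw [star_add, star_neg, star_sub, star_sub, ht, ht', hls, hls])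
    have h3 := mem_smallOrd_of_ord B W (Lam.sub_mem (hl t'.out) (hl t.out)) (by
      rw [star_sub, hls, hls])
    have h4 := (smallOrd B Lam W).add_mem h2 h3
    convert h4 using 1
    show -((t.out : selfAdjoint A) : A) + ((t'.out : selfAdjoint A) : A) = _
    abel
  have := hfin.to_subtype
  exact Finite.of_injective (fun t => (⟨f t, hf t⟩ :
    ((QuotientAddGroup.mk : E → E ⧸ W) '' C0))) fun t t' h => hinj (congrArg Subtype.val h)

/-- The order meets a small neighborhood in zero only. -/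
theorem exists_U0 [LocallyCompactSpace R] [T2Space R] {O : Subring k} (hG : Good k R O)
    {Lam : Subring A} (H : IsOrdR B.a O Lam) :
    ∃ U0 ∈ 𝓝 (0 : E), ∀ x ∈ Lam, B.j x ∈ U0 → x = 0 := by
  have hlc : LocallyCompactSpace E := B.locallyCompact
  have ht2 : T2Space E := B.t2
  obtain ⟨K, hK, hK0⟩ := exists_compact_mem_nhds (0 : E)
  have hfin := B.disc hG.disc H K hK
  have hfin2 : (B.j '' ({x : A | x ∈ Lam ∧ B.j x ∈ K} \ {0})).Finite :=
    (hfin.subset Set.sdiff_subset).image _
  refine ⟨K \ (B.j '' ({x : A | x ∈ Lam ∧ B.j x ∈ K} \ {0})), ?_, ?_⟩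
  · refine Filter.inter_mem hK0 (hfin2.isClosed.isOpen_compl.mem_nhds ?_)
    rintro ⟨x, ⟨-, hx0⟩, hx⟩
    exact hx0 (B.j_inj (by rw [hx, map_zero]))
  · rintro x hx ⟨hxK, hxn⟩
    by_contra h0
    exact hxn ⟨x, ⟨⟨hx, hxK⟩, h0⟩, rfl⟩

end fin

theorem sum_le_of_inj {ι T : Type*} (F : Finset ι) (g : F → T) (hg : Function.Injective g)
    {f : T → ℝ} (hf : ∀ t, 0 ≤ f t) (hs : Summable f) : ∑ s : F, f (g s) ≤ ∑' t, f t := by
  have h : ∑ s : F, f (g s) = ∑ t ∈ Finset.univ.map ⟨g, hg⟩, f t := by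
    rw [Finset.sum_map]
    rfl
  rw [h]
  exact hs.sum_le_tsum _ fun t _ => hf t

section fib
variable {P A : Type*} [CommRing P] [Ring A] [StarRing A] [Algebra P A]
  (hst : ∀ (r : P) (x : A), star (r • x) = r • star x) {O' : Subalgebra P A}

theorem sum_fib (p : TM hst O' → Prop) (x : ℝ) (hsum : Summable (wtT hst O' x)) (F : Finset A)
    (y : F → SymR hst) (hy : ∀ s : F, (y s : A) = s)
    (hp : ∀ s : F, p (Submodule.Quotient.mk (y s)))
    (hinj : ∀ s ∈ F, ∀ t ∈ F, s - t ∈ O' → s = t) :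
    ∑ s ∈ F, (H699.den O'.toSubring s : ℝ) ^ (-x) ≤ ∑' t : {t : TM hst O' // p t},
      wtT hst O' x t := by
  have h5 : ∑ s ∈ F, (H699.den O'.toSubring s : ℝ) ^ (-x) =
      ∑ s : F, wtT hst O' x (Submodule.Quotient.mk (y s)) := by
    rw [← Finset.sum_coe_sort F]
    refine Finset.sum_congr rfl fun s _ => ?_
    rw [wtT_mk, hy]
  rw [h5]
  refine sum_le_of_inj F (fun s => (⟨Submodule.Quotient.mk (y s), hp s⟩ :
    {t : TM hst O' // p t})) (fun s s' hss => ?_)
    (f := fun t : {t : TM hst O' // p t} => wtT hst O' x t.1) (fun t => wtT_nonneg hst x t.1)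
    (hsum.comp_injective Subtype.val_injective)
  have h2 := congrArg Subtype.val hss
  have h3 : (y s : A) - y s' ∈ O' := (mk_eq_mk hst).1 h2
  rw [hy, hy] at h3
  exact Subtype.ext (hinj s.1 s.2 s'.1 s'.2 h3)

end fib

section final
variable {P k R A E ι : Type*} [CommRing P] [IsDedekindDomain P] [Field k] [Algebra P k]
  [IsFractionRing P k] [CommRing R] [TopologicalSpace R] [IsTopologicalRing R]
  [Algebra k R] [Ring A] [StarRing A] [Algebra k A] [Algebra P A] [IsScalarTower P k A] [Ring E]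
  [StarRing E] [TopologicalSpace E] [IsTopologicalRing E] [Algebra R E] [Fintype ι]
  [DecidableEq ι] (B : BCR k R A E ι) [Nontrivial R] [LocallyCompactSpace R] [T2Space R]

/-- The coset bound, from the total mass and the decay of the character sums. -/
theorem cos_of_decay {O : Subring k} (hG : Good k R O)
    (hst : ∀ (r : P) (x : A), star (r • x) = r • star x) {O' : Subalgebra P A}
    (H : IsOrdR B.a O O'.toSubring) {q : A} (hq : ∀ x, q * x = x * q) (hq1 : q + star q = 1)
    {C : ℝ} (hC : 0 ≤ C) (hmass : ∀ x : ℝ, 1 < x → x ≤ 2 →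
      Summable (wtT hst O' x) ∧ ∑' t, wtT hst O' x t ≤ C / (x - 1))
    (hdec : ∀ W : AddSubgroup E, IsOpen (W : Set E) → ∀ χ : TM hst O' → ℂ,
      (∀ t t', χ (t + t') = χ t * χ t') → (∀ t, ‖χ t‖ = 1) →
      (∀ y : SymR hst, B.j y ∈ W → χ (Submodule.Quotient.mk y) = 1) → (∃ t, χ t ≠ 1) →
      Tendsto (fun x : ℝ => (x - 1) * ‖∑' t, (wtT hst O' x t : ℂ) * χ t‖) (𝓝[>] 1) (𝓝 0)) :
    Cos B O'.toSubring := by
  obtain ⟨U0, hU0, hU⟩ := exists_U0 B hG H
  refine ⟨C, U0, hU0, fun W hW hWU ε hε => ?_⟩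
  set M := smallOrd B O'.toSubring W with hM
  have hMO : ∀ x ∈ O', star x = x → x ∈ M := fun x hx hs => mem_smallOrd_of_ord B W hx hs
  have hfin : Finite (QS M) := finite_QS B hG H hq hq1 hW
  have hev : ∀ᶠ x in 𝓝[>] (1 : ℝ), Summable (wtT hst O' x) ∧
      ∑' t, wtT hst O' x t ≤ C / (x - 1) := by
    have h1 : Set.Ioc (1 : ℝ) 2 ∈ 𝓝[>] (1 : ℝ) := Ioc_mem_nhdsGT (by norm_num)
    filter_upwards [h1] with x hx
    exact hmass x hx.1 hx.2
  have h := H704.coset_of_fourier (om hst O' M hMO) (wtT hst O') (wtT_nonneg hst) hC hev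
    (fun ψ hψ => ?_) hε
  · have h1 : Set.Ioc (1 : ℝ) 2 ∈ 𝓝[>] (1 : ℝ) := Ioc_mem_nhdsGT (by norm_num)
    filter_upwards [h, h1] with x hx hx1 F hF hFW
    rw [← card_QS]
    rcases F.eq_empty_or_nonempty with rfl | ⟨s0, hs0⟩
    · rw [Finset.sum_empty, mul_zero]
      have := hx1.1
      positivity
    · set t0 := om hst O' M hMO (Submodule.Quotient.mk (⟨s0, hF s0 hs0⟩ : SymR hst)) with ht0
      refine le_trans (mul_le_mul_of_nonneg_left ?_ (by linarith [hx1.1])) (hx t0)
      have hmem : ∀ s : F, om hst O' M hMO (Submodule.Quotient.mk (⟨s.1, hF s.1 s.2⟩ : SymR hst)) =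
          t0 := by
        intro s
        rw [ht0, om_mk, om_mk, QuotientAddGroup.eq, AddSubgroup.mem_addSubgroupOf]
        have h2 := mem_smallOrd_of_small B O'.toSubring (hFW s0 hs0 s.1 s.2) (by
          rw [star_sub, hF s0 hs0, hF s.1 s.2])
        convert h2 using 1
        show -s.1 + s0 = _
        abel
      refine sum_fib hst (fun t => om hst O' M hMO t = t0) x (hmass x hx1.1 hx1.2).1 F
        (fun s => ⟨s.1, hF s.1 s.2⟩) (fun s => rfl) hmem fun s hs t ht hst' => ?_
      exact sub_eq_zero.1 (hU _ hst' (hWU (hFW s hs t ht)))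
  · have hnorm : ∀ t, ‖ψ t‖ = 1 := fun t => AddChar.norm_apply ψ t
    refine hdec W hW (fun t => ψ (om hst O' M hMO t)) (fun t t' => ?_) (fun t => hnorm _)
      (fun y hy => ?_) ?_
    · rw [map_add, AddChar.map_add_eq_mul]
    · rw [om_mk]
      have h2 : (QuotientAddGroup.mk (⟨(y : A), y.2⟩ : selfAdjoint A) : QS M) = 0 := by
        rw [QuotientAddGroup.eq_zero_iff, AddSubgroup.mem_addSubgroupOf]
        exact mem_smallOrd_of_small B _ hy y.2
      rw [h2, AddChar.map_zero_eq_one]
    · by_contra hcon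
      push Not at hcon
      apply hψ
      ext t
      obtain ⟨t, rfl⟩ := om_surj hst hMO t
      rw [hcon t]
      rfl

end final

end Vale.Agent.P011.H40
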