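import Vale.Agent.P011.H699.Den

/-!
# Index inequalities for `2 x 2` matrices over an order, and spacing

`E` is a ring, `Λ` a subring, `e ∈ Λ` an idempotent, `f = 1 - e`, `y = c + b + b₁ + a` with
`c ∈ eEe`, `b ∈ eEf`, `b₁ ∈ fEe`, `a ∈ fEf`.
-/

set_option autoImplicit false
set_option linter.unusedSectionVars false

open MeasureTheory Filter Topology Set
open scoped ENNReal Pointwise NNReal

namespace Vale.Agent.P011.H40

open Vale.Agent.P011.H699

section Alg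

variable {E : Type*} [Ring E] (Λ : Subring E)

/-- `c Λ + Λ` -/
def cM (c : E) : AddSubgroup E := Λ.toAddSubgroup.map (AddMonoidHom.mulLeft c) ⊔ Λ.toAddSubgroup

/-- `{x ∈ Λ | b x ∈ c Λ + Λ}` -/
def bJ (c b : E) : AddSubgroup E :=
  Λ.toAddSubgroup ⊓ (cM Λ c).comap (AddMonoidHom.mulLeft b)

/-- `{x ∈ Λ | c x ∈ Λ, b₁ x ∈ Λ}` -/
def bA (c b₁ : E) : AddSubgroup E := colon Λ c ⊓ colon Λ b₁

/-- the first relative denominator of `b` -/
noncomputable def bet (c b : E) : ℕ := (bJ Λ c b).relIndex Λ.toAddSubgroup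

/-- the second relative denominator of `b` -/
noncomputable def bet' (c b₁ : E) : ℕ := (bA Λ c b₁).relIndex (colon Λ c)

variable {Λ}

theorem mem_bJ {c b x : E} : x ∈ bJ Λ c b ↔ x ∈ Λ ∧ b * x ∈ cM Λ c := Iff.rfl

theorem mem_bA {c b x : E} : x ∈ bA Λ c b ↔ x ∈ Λ ∧ c * x ∈ Λ ∧ b * x ∈ Λ := by
  constructor
  · rintro ⟨h1, h2⟩
    exact ⟨h1.1, h1.2, h2.2⟩
  · rintro ⟨h1, h2, h3⟩
    exact ⟨⟨h1, h2⟩, ⟨h1, h3⟩⟩

theorem mul_mem_cM {c x : E} (hx : x ∈ Λ) : c * x ∈ cM Λ c :=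
  AddSubgroup.mem_sup_left ⟨x, hx, rfl⟩

theorem mem_cM_of_mem {c x : E} (hx : x ∈ Λ) : x ∈ cM Λ c := AddSubgroup.mem_sup_right hx

/-- `[cΛ + Λ : Λ] = den c` -/
theorem relIndex_cM (c : E) : Λ.toAddSubgroup.relIndex (cM Λ c) = den Λ c := by
  rw [cM, AddSubgroup.relIndex_sup_right, ← AddSubgroup.relIndex_comap, den]
  conv_rhs => rw [← AddSubgroup.inf_relIndex_right]
  rw [← AddSubgroup.inf_relIndex_right]
  congr 1
  ext x
  constructor
  · rintro ⟨h1, h2⟩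
    exact ⟨⟨h2, h1⟩, h2⟩
  · rintro ⟨h1, h2⟩
    exact ⟨h1.2, h2⟩

theorem bet_ne_zero {c b : E} (hb : den Λ b ≠ 0) : bet Λ c b ≠ 0 := by
  intro h
  apply hb
  refine AddSubgroup.relIndex_eq_zero_of_le_left ?_ h
  intro x hx
  exact ⟨hx.1, mem_cM_of_mem hx.2⟩

theorem bet'_ne_zero {c b₁ : E} (hb : den Λ b₁ ≠ 0) : bet' Λ c b₁ ≠ 0 := by
  intro h
  apply hb
  rw [bet', bA, AddSubgroup.inf_relIndex_left] at h
  exact AddSubgroup.relIndex_eq_zero_of_le_right (colon_le Λ c) h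

theorem den_mul_bet' (c b₁ : E) : den Λ c * bet' Λ c b₁ = (bA Λ c b₁).relIndex Λ.toAddSubgroup := by
  rw [den, bet', mul_comm]
  exact AddSubgroup.relIndex_mul_relIndex _ _ _ inf_le_left (colon_le Λ c)

theorem one_le_bet {c b : E} (hb : den Λ b ≠ 0) : 1 ≤ bet Λ c b :=
  Nat.one_le_iff_ne_zero.2 (bet_ne_zero hb)

theorem one_le_bet' {c b₁ : E} (hb : den Λ b₁ ≠ 0) : 1 ≤ bet' Λ c b₁ :=
  Nat.one_le_iff_ne_zero.2 (bet'_ne_zero hb)

/-- `c Λ + Λ` does not depend on `c` modulo `Λ`. -/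
theorem cM_add {c l : E} (hl : l ∈ Λ) : cM Λ (c + l) = cM Λ c := by
  have h : ∀ c l : E, l ∈ Λ → cM Λ (c + l) ≤ cM Λ c := by
    intro c l hl
    refine sup_le ?_ le_sup_right
    rintro _ ⟨x, hx, rfl⟩
    change (c + l) * x ∈ _
    rw [add_mul]
    exact add_mem (mul_mem_cM hx) (mem_cM_of_mem (Λ.mul_mem hl hx))
  refine le_antisymm (h c l hl) ?_
  have h1 := h (c + l) (-l) (Λ.neg_mem hl)
  rwa [add_neg_cancel_right] at h1

theorem bJ_add {c b l : E} (hl : l ∈ Λ) : bJ Λ c (b + l) = bJ Λ c b := by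
  ext x
  rw [mem_bJ, mem_bJ]
  refine and_congr_right fun hx => ?_
  rw [add_mul]
  exact (cM Λ c).add_mem_cancel_right (mem_cM_of_mem (Λ.mul_mem hl hx))

theorem bet_add {c b l : E} (hl : l ∈ Λ) : bet Λ c (b + l) = bet Λ c b := by
  rw [bet, bJ_add hl, bet]

theorem bet'_add {c b l : E} (hl : l ∈ Λ) : bet' Λ c (b + l) = bet' Λ c b := by
  rw [bet', bA, colon_add hl, bet', bA]

theorem bet_add_left {c b l : E} (hl : l ∈ Λ) : bet Λ (c + l) b = bet Λ c b := by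
  rw [bet, bJ, cM_add hl, bet, bJ]

theorem bet'_add_left {c b l : E} (hl : l ∈ Λ) : bet' Λ (c + l) b = bet' Λ c b := by
  rw [bet', bA, colon_add hl, bet', bA]

section block

variable {e f c b b₁ a : E} (he : e ∈ Λ) (hf : f ∈ Λ) (hef : e + f = 1)
  (hec : e * c = c) (hce : c * e = c) (heb : e * b = b) (hbf : b * f = b)
  (hfb : f * b₁ = b₁) (hbe : b₁ * e = b₁) (hfa : f * a = a) (haf : a * f = a)

/-- the elements of `Λ` congruent to an element of the colon ideal modulo `eΛ` -/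
def gY (Λ : Subring E) (e y : E) : AddSubgroup E :=
  colon Λ y ⊔ Λ.toAddSubgroup.map (AddMonoidHom.mulLeft e)

include he in
theorem gY_le (y : E) : gY Λ e y ≤ Λ.toAddSubgroup := by
  refine sup_le (colon_le Λ y) ?_
  rintro _ ⟨x, hx, rfl⟩
  exact Λ.mul_mem he hx

include hef in
theorem ee_of (h : e * f = 0) : e * e = e := by
  have h1 := congrArg (e * ·) hef
  simp only [mul_add, mul_one, h, add_zero] at h1
  exact h1

/-- orthogonality relations -/
structure Ort (e f c b b₁ a : E) : Prop where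
  ec : e * c = c
  ce : c * e = c
  fc : f * c = 0
  cf : c * f = 0
  eb : e * b = b
  be : b * e = 0
  fb : f * b = 0
  bf : b * f = b
  eb₁ : e * b₁ = 0
  b₁e : b₁ * e = b₁
  fb₁ : f * b₁ = b₁
  b₁f : b₁ * f = 0
  ea : e * a = 0
  ae : a * e = 0
  fa : f * a = a
  af : a * f = a

include hef hec hce heb hbf hfb hbe hfa haf in
theorem ort (hee : e * e = e) : Ort e f c b b₁ a := by
  have hf' : f = 1 - e := by rw [← hef]; abel
  have hef0 : e * f = 0 := by rw [hf', mul_sub, mul_one, hee, sub_self]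
  have hfe0 : f * e = 0 := by rw [hf', sub_mul, one_mul, hee, sub_self]
  refine ⟨hec, hce, ?_, ?_, heb, ?_, ?_, hbf, ?_, hbe, hfb, ?_, ?_, ?_, hfa, haf⟩
  · rw [← hec, ← mul_assoc, hfe0, zero_mul]
  · rw [← hce, mul_assoc, hef0, mul_zero]
  · rw [← hbf, mul_assoc, hfe0, mul_zero]
  · rw [← heb, ← mul_assoc, hfe0, zero_mul]
  · rw [← hfb, ← mul_assoc, hef0, zero_mul]
  · rw [← hbe, mul_assoc, hef0, mul_zero]
  · rw [← hfa, ← mul_assoc, hef0, zero_mul]
  · rw [← haf, mul_assoc, hfe0, mul_zero]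

variable (ho : Ort e f c b b₁ a)

include he hf hef ho in
theorem mem_colon_y {x : E} : x ∈ colon Λ (c + b + b₁ + a) ↔
    x ∈ Λ ∧ c * x + b * x ∈ Λ ∧ b₁ * x + a * x ∈ Λ := by
  rw [mem_colon]
  refine and_congr_right fun hx => ?_
  have h1 : e * ((c + b + b₁ + a) * x) = c * x + b * x := by
    rw [← mul_assoc, mul_add, mul_add, mul_add, ho.ec, ho.eb, ho.eb₁, ho.ea, add_zero, add_zero,
      add_mul]
  have h2 : f * ((c + b + b₁ + a) * x) = b₁ * x + a * x := by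
    rw [← mul_assoc, mul_add, mul_add, mul_add, ho.fc, ho.fb, ho.fb₁, ho.fa, add_zero, zero_add,
      add_mul]
  constructor
  · intro h
    exact ⟨h1 ▸ Λ.mul_mem he h, h2 ▸ Λ.mul_mem hf h⟩
  · rintro ⟨h3, h4⟩
    have h5 : (c + b + b₁ + a) * x = (c * x + b * x) + (b₁ * x + a * x) := by noncomm_ring
    rw [h5]
    exact Λ.add_mem h3 h4

include he hf hef ho in
/-- **(I1)** `den y = [Λ : gY] * den c * bet'`. -/
theorem den_eq_gY : den Λ (c + b + b₁ + a) =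
    (gY Λ e (c + b + b₁ + a)).relIndex Λ.toAddSubgroup * (den Λ c * bet' Λ c b₁) := by
  set y := c + b + b₁ + a with hy
  have hel : Λ.toAddSubgroup.map (AddMonoidHom.mulLeft e) ≤ Λ.toAddSubgroup := by
    rintro _ ⟨x, hx, rfl⟩
    exact Λ.mul_mem he hx
  have h1 : (colon Λ y).relIndex (gY Λ e y) =
      (colon Λ y).relIndex (Λ.toAddSubgroup.map (AddMonoidHom.mulLeft e)) := by
    rw [gY, AddSubgroup.relIndex_sup_left]
  have h2 : (colon Λ y).relIndex (Λ.toAddSubgroup.map (AddMonoidHom.mulLeft e)) =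
      (bA Λ c b₁).relIndex (Λ.toAddSubgroup.map (AddMonoidHom.mulLeft e)) := by
    rw [← AddSubgroup.inf_relIndex_right, ← AddSubgroup.inf_relIndex_right (bA Λ c b₁)]
    congr 1
    ext x
    rw [AddSubgroup.mem_inf, AddSubgroup.mem_inf, mem_colon_y he hf hef ho, mem_bA]
    constructor
    · rintro ⟨⟨h3, h4, h5⟩, z, hz, rfl⟩
      change _ ∈ Λ at h3
      simp only [AddMonoidHom.coe_mulLeft] at h4 h5 ⊢
      have h6 : b * (e * z) = 0 := by rw [← mul_assoc, ho.be, zero_mul]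
      have h7 : a * (e * z) = 0 := by rw [← mul_assoc, ho.ae, zero_mul]
      rw [h6, add_zero] at h4
      rw [h7, add_zero] at h5
      exact ⟨⟨h3, h4, h5⟩, z, hz, rfl⟩
    · rintro ⟨⟨h3, h4, h5⟩, z, hz, rfl⟩
      change _ ∈ Λ at h3
      simp only [AddMonoidHom.coe_mulLeft] at h4 h5 ⊢
      have h6 : b * (e * z) = 0 := by rw [← mul_assoc, ho.be, zero_mul]
      have h7 : a * (e * z) = 0 := by rw [← mul_assoc, ho.ae, zero_mul]
      rw [h6, add_zero, h7, add_zero]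
      exact ⟨⟨h3, h4, h5⟩, z, hz, rfl⟩
  have h3 : (bA Λ c b₁).relIndex (Λ.toAddSubgroup.map (AddMonoidHom.mulLeft e)) =
      (bA Λ c b₁).relIndex Λ.toAddSubgroup := by
    have h4 : Λ.toAddSubgroup.map (AddMonoidHom.mulLeft e) ⊔ bA Λ c b₁ = Λ.toAddSubgroup := by
      refine le_antisymm (sup_le hel (inf_le_left.trans (colon_le Λ c))) ?_
      intro x hx
      have h5 : x = e * x + f * x := by rw [← add_mul, hef, one_mul]
      rw [h5]
      refine add_mem (AddSubgroup.mem_sup_left ⟨x, hx, rfl⟩) (AddSubgroup.mem_sup_right ?_)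
      rw [mem_bA]
      refine ⟨Λ.mul_mem hf hx, ?_, ?_⟩
      · rw [← mul_assoc, ho.cf, zero_mul]
        exact Λ.zero_mem
      · rw [← mul_assoc, ho.b₁f, zero_mul]
        exact Λ.zero_mem
    rw [← AddSubgroup.relIndex_sup_right, h4]
  rw [den_mul_bet', ← h3, ← h2, ← h1, mul_comm]
  exact (AddSubgroup.relIndex_mul_relIndex _ _ _ le_sup_left (gY_le he y)).symm

include he hf hef ho in
theorem gY_le_bJ : gY Λ e (c + b + b₁ + a) ≤ bJ Λ c b := by
  refine sup_le ?_ ?_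
  · intro x hx
    obtain ⟨h1, h2, -⟩ := (mem_colon_y he hf hef ho).1 hx
    refine ⟨h1, ?_⟩
    change b * x ∈ cM Λ c
    have h3 : b * x = (c * x + b * x) - c * x := by abel
    rw [h3]
    exact sub_mem (mem_cM_of_mem h2) (mul_mem_cM h1)
  · rintro _ ⟨x, hx, rfl⟩
    refine ⟨Λ.mul_mem he hx, ?_⟩
    change b * (e * x) ∈ cM Λ c
    rw [← mul_assoc, ho.be, zero_mul]
    exact zero_mem _

include he hf hef ho in
/-- **(Lo)** -/
theorem le_den (hy : den Λ (c + b + b₁ + a) ≠ 0) :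
    den Λ c * (bet Λ c b * bet' Λ c b₁) ≤ den Λ (c + b + b₁ + a) := by
  rw [den_eq_gY he hf hef ho] at hy ⊢
  have h1 : bet Λ c b ≤ (gY Λ e (c + b + b₁ + a)).relIndex Λ.toAddSubgroup :=
    AddSubgroup.relIndex_le_of_le_left (gY_le_bJ he hf hef ho) (left_ne_zero_of_mul hy)
  calc den Λ c * (bet Λ c b * bet' Λ c b₁) = bet Λ c b * (den Λ c * bet' Λ c b₁) := by ring
    _ ≤ _ := Nat.mul_le_mul_right _ h1

end block

end Alg

section Top

variable {E : Type*} [Ring E] [TopologicalSpace E] [IsTopologicalRing E] [T2Space E]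
  {Λ : Subring E} [LocallyCompactSpace E] [MeasurableSpace E] [BorelSpace E]

/-- **General spacing.** -/
theorem one_le_of_index (hΛ : LRing Λ) {I M : AddSubgroup E} (hI : I ≤ Λ.toAddSubgroup)
    (hI0 : I.relIndex Λ.toAddSubgroup ≠ 0) (hM0 : Λ.toAddSubgroup.relIndex M ≠ 0) (d : Eˣ)
    (hd : ∀ x ∈ I, (d : E) * x ∈ M) {m m' : ℕ} (hm : I.relIndex Λ.toAddSubgroup ≤ m)
    (hm' : Λ.toAddSubgroup.relIndex M ≤ m') :
    1 ≤ (m : ℝ≥0) * m' * distribHaarChar E d := by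
  set I' : AddSubgroup E := I ⊓ Λ.toAddSubgroup.comap (AddMonoidHom.mulLeft (d : E)) with hI'
  have h1 : I'.relIndex I = Λ.toAddSubgroup.relIndex (I.map (AddMonoidHom.mulLeft (d : E))) := by
    rw [hI', AddSubgroup.inf_relIndex_left, AddSubgroup.relIndex_comap]
  have h2 : I.map (AddMonoidHom.mulLeft (d : E)) ≤ M := by
    rintro _ ⟨x, hx, rfl⟩
    exact hd x hx
  have h3 : I'.relIndex I ≤ m' := by
    rw [h1]
    exact (AddSubgroup.relIndex_le_of_le_right h2 hM0).trans hm'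
  have h4 : I'.relIndex I ≠ 0 := by
    rw [h1]
    exact fun h => hM0 (AddSubgroup.relIndex_eq_zero_of_le_right h2 h)
  have h5 : I'.relIndex Λ.toAddSubgroup = I'.relIndex I * I.relIndex Λ.toAddSubgroup :=
    (AddSubgroup.relIndex_mul_relIndex _ _ _ inf_le_left hI).symm
  have h6 := one_le_mod_of_sublattice hΛ.latt (I := I') (inf_le_left.trans hI)
    (by rw [h5]; exact mul_ne_zero h4 hI0) d (fun x hx => hx.2)
  refine h6.trans ?_
  rw [h5, Nat.cast_mul, mul_comm (I'.relIndex I : ℝ≥0)]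
  gcongr

section spacing

variable {e f c b b₁ a : E}

/-- **(Sa)**: two elements with the same `c`, `b`, `b₁`. -/
theorem spacing_a (hΛ : LRing Λ) (he : e ∈ Λ) (hf : f ∈ Λ) (hef : e + f = 1) {a' : E}
    (ho : Ort e f c b b₁ a) (ho' : Ort e f c b b₁ a') (hb : den Λ b ≠ 0) (hb₁ : den Λ b₁ ≠ 0)
    (hy : den Λ (c + b + b₁ + a) ≠ 0) (hy' : den Λ (c + b + b₁ + a') ≠ 0) (d : Eˣ)
    (hd : (d : E) = e + (a - a')) :
    (den Λ c : ℝ≥0) ^ 2 * (bet Λ c b * bet' Λ c b₁) ≤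
      den Λ (c + b + b₁ + a) * den Λ (c + b + b₁ + a') * distribHaarChar E d := by
  set y := c + b + b₁ + a with hydef
  set y' := c + b + b₁ + a' with hy'def
  have hG := den_eq_gY he hf hef ho
  have hG' := den_eq_gY he hf hef ho'
  rw [← hydef] at hG
  rw [← hy'def] at hG'
  have h1 : (gY Λ e y).relIndex Λ.toAddSubgroup ≠ 0 := by
    rw [hG] at hy
    exact left_ne_zero_of_mul hy
  have h1' : (gY Λ e y').relIndex Λ.toAddSubgroup ≠ 0 := by
    rw [hG'] at hy'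
    exact left_ne_zero_of_mul hy'
  have hJ := gY_le_bJ he hf hef ho
  have hJ' := gY_le_bJ he hf hef ho'
  rw [← hydef] at hJ
  rw [← hy'def] at hJ'
  have hJΛ : bJ Λ c b ≤ Λ.toAddSubgroup := inf_le_left
  set I := gY Λ e y ⊓ gY Λ e y' with hI
  have hIJ : I ≤ bJ Λ c b := inf_le_left.trans hJ
  have h2 : (gY Λ e y).relIndex (bJ Λ c b) * bet Λ c b =
      (gY Λ e y).relIndex Λ.toAddSubgroup := AddSubgroup.relIndex_mul_relIndex _ _ _ hJ hJΛ
  have h2' : (gY Λ e y').relIndex (bJ Λ c b) * bet Λ c b =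
      (gY Λ e y').relIndex Λ.toAddSubgroup := AddSubgroup.relIndex_mul_relIndex _ _ _ hJ' hJΛ
  have h3 : I.relIndex (bJ Λ c b) ≤
      (gY Λ e y).relIndex (bJ Λ c b) * (gY Λ e y').relIndex (bJ Λ c b) :=
    AddSubgroup.relIndex_inf_le
  have h3' : I.relIndex (bJ Λ c b) ≠ 0 := AddSubgroup.relIndex_inf_ne_zero
    (by rw [← h2] at h1; exact left_ne_zero_of_mul h1)
    (by rw [← h2'] at h1'; exact left_ne_zero_of_mul h1')
  have h4 : I.relIndex (bJ Λ c b) * bet Λ c b = I.relIndex Λ.toAddSubgroup :=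
    AddSubgroup.relIndex_mul_relIndex _ _ _ hIJ hJΛ
  have h5 := one_le_of_index hΛ (I := I) (M := (colon Λ c).map (AddMonoidHom.mulLeft b₁) ⊔
    Λ.toAddSubgroup) (hIJ.trans hJΛ) (by rw [← h4]; exact mul_ne_zero h3' (bet_ne_zero hb))
    (m := (gY Λ e y).relIndex (bJ Λ c b) * (gY Λ e y').relIndex (bJ Λ c b) * bet Λ c b)
    (m' := bet' Λ c b₁) ?_ d ?_ (by rw [← h4]; exact Nat.mul_le_mul_right _ h3) ?_
  · -- conclusion
    have h6 : ((den Λ y : ℕ) : ℝ≥0) * den Λ y' * (bet Λ c b : ℝ≥0) =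
        ((gY Λ e y).relIndex (bJ Λ c b) * (gY Λ e y').relIndex (bJ Λ c b) * bet Λ c b : ℕ) *
          (bet' Λ c b₁ : ℝ≥0) * ((den Λ c : ℝ≥0) ^ 2 * (bet Λ c b * bet' Λ c b₁) * bet Λ c b) := by
      rw [hG, hG', ← h2, ← h2']
      push_cast
      ring
    have h7 : (0 : ℝ≥0) < bet Λ c b := by
      have := one_le_bet (Λ := Λ) (c := c) hb
      exact_mod_cast this
    refine le_of_mul_le_mul_right ?_ h7
    calc (den Λ c : ℝ≥0) ^ 2 * (bet Λ c b * bet' Λ c b₁) * bet Λ c b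
        ≤ ((((gY Λ e y).relIndex (bJ Λ c b) * (gY Λ e y').relIndex (bJ Λ c b) * bet Λ c b : ℕ) :
          ℝ≥0) * (bet' Λ c b₁ : ℝ≥0) * distribHaarChar E d) *
          ((den Λ c : ℝ≥0) ^ 2 * (bet Λ c b * bet' Λ c b₁) * bet Λ c b) :=
          le_mul_of_one_le_left zero_le h5
      _ = (((den Λ y : ℕ) : ℝ≥0) * den Λ y' * (bet Λ c b : ℝ≥0)) * distribHaarChar E d := by
          rw [h6]
          ring
      _ = _ := by ring
  · rw [AddSubgroup.relIndex_sup_right, ← AddSubgroup.relIndex_comap]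
    intro h
    refine bet'_ne_zero (Λ := Λ) (c := c) hb₁ ?_
    rw [bet']
    refine AddSubgroup.relIndex_eq_zero_of_le_left ?_ h
    intro x hx
    exact (mem_bA.1 hx).2.2
  · -- the spacing element
    rintro x ⟨hx, hx'⟩
    obtain ⟨z, hz, l, hl, hzl⟩ := AddSubgroup.mem_sup.1 hx
    obtain ⟨z', hz', l', hl', hzl'⟩ := AddSubgroup.mem_sup.1 hx'
    obtain ⟨l₁, hl₁, rfl⟩ := hl
    obtain ⟨l₁', hl₁', rfl⟩ := hl'
    obtain ⟨hz1, hz2, hz3⟩ := (mem_colon_y he hf hef ho).1 hz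
    obtain ⟨hz1', hz2', hz3'⟩ := (mem_colon_y he hf hef ho').1 hz'
    change z + e * l₁ = x at hzl
    change z' + e * l₁' = x at hzl'
    have hbx : b * x = b * z := by rw [← hzl, mul_add, ← mul_assoc, ho.be, zero_mul, add_zero]
    have hbx' : b * x = b * z' := by rw [← hzl', mul_add, ← mul_assoc, ho.be, zero_mul, add_zero]
    have hax : a * x = a * z := by rw [← hzl, mul_add, ← mul_assoc, ho.ae, zero_mul, add_zero]
    have hax' : a' * x = a' * z' := by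
      rw [← hzl', mul_add, ← mul_assoc, ho'.ae, zero_mul, add_zero]
    have hw : z' - z ∈ colon Λ c := by
      refine ⟨Λ.sub_mem hz1' hz1, ?_⟩
      have h6 : c * (z' - z) = (c * z' + b * z') - (c * z + b * z) := by
        rw [← hbx, ← hbx']
        noncomm_ring
      rw [h6]
      exact Λ.sub_mem hz2' hz2
    have h7 : (d : E) * x = b₁ * (z' - z) + (e * x + ((b₁ * z + a * z) - (b₁ * z' + a' * z'))) := by
      rw [hd, add_mul, sub_mul, hax, hax']
      noncomm_ring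
    rw [h7]
    have hxΛ : x ∈ Λ := by
      rw [← hzl]
      exact Λ.add_mem hz1 (Λ.mul_mem he hl₁)
    exact add_mem (AddSubgroup.mem_sup_left ⟨_, hw, rfl⟩)
      (AddSubgroup.mem_sup_right (Λ.add_mem (Λ.mul_mem he hxΛ) (Λ.sub_mem hz3 hz3')))
  · rw [AddSubgroup.relIndex_sup_right, ← AddSubgroup.relIndex_comap, bet', bA,
      AddSubgroup.inf_relIndex_left]
    refine le_of_eq ?_
    rw [← AddSubgroup.inf_relIndex_right, ← AddSubgroup.inf_relIndex_right (colon Λ b₁)]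
    congr 1
    ext x
    constructor
    · rintro ⟨h6, h7⟩
      exact ⟨⟨h7.1, h6⟩, h7⟩
    · rintro ⟨h6, h7⟩
      exact ⟨h6.2, h7⟩

/-- **(Sb)** -/
theorem spacing_b (hΛ : LRing Λ) (hf : f ∈ Λ) {v : E} (hv : v ∈ Λ) {b' : E}
    (hc : den Λ c ≠ 0) (hb : den Λ b ≠ 0) (hb' : den Λ b' ≠ 0) (d : Eˣ)
    (hd : (d : E) = (b - b') * v + f) :
    1 ≤ (den Λ c : ℝ≥0) * (bet Λ c b * bet Λ c b') * distribHaarChar E d := by
  set T : AddSubgroup E → AddSubgroup E := fun J =>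
    Λ.toAddSubgroup ⊓ J.comap (AddMonoidHom.mulLeft v) with hT
  have hle : Λ.toAddSubgroup.map (AddMonoidHom.mulLeft v) ≤ Λ.toAddSubgroup := by
    rintro _ ⟨x, hx, rfl⟩
    exact Λ.mul_mem hv hx
  have h1 : ∀ J : AddSubgroup E, (T J).relIndex Λ.toAddSubgroup =
      J.relIndex (Λ.toAddSubgroup.map (AddMonoidHom.mulLeft v)) := fun J => by
    rw [hT]
    simp only
    rw [AddSubgroup.inf_relIndex_left, AddSubgroup.relIndex_comap]
  have h2 : ∀ {b : E}, den Λ b ≠ 0 → (T (bJ Λ c b)).relIndex Λ.toAddSubgroup ≠ 0 := by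
    intro b hb h
    rw [h1] at h
    exact bet_ne_zero hb (AddSubgroup.relIndex_eq_zero_of_le_right hle h)
  have h3 : ∀ {b : E}, den Λ b ≠ 0 → (T (bJ Λ c b)).relIndex Λ.toAddSubgroup ≤ bet Λ c b := by
    intro b hb
    rw [h1]
    exact AddSubgroup.relIndex_le_of_le_right hle (bet_ne_zero hb)
  have h4 := one_le_of_index hΛ (I := T (bJ Λ c b) ⊓ T (bJ Λ c b')) (M := cM Λ c)
    (inf_le_left.trans inf_le_left) (AddSubgroup.relIndex_inf_ne_zero (h2 hb) (h2 hb'))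
    (by rw [relIndex_cM]; exact hc) d ?_
    (AddSubgroup.relIndex_inf_le.trans (Nat.mul_le_mul (h3 hb) (h3 hb')))
    (relIndex_cM (Λ := Λ) c).le
  · refine h4.trans (le_of_eq ?_)
    push_cast
    ring
  · rintro x ⟨⟨hx1, hx2⟩, -, hx3⟩
    have h5 : (d : E) * x = b * (v * x) - b' * (v * x) + f * x := by
      rw [hd]
      noncomm_ring
    rw [h5]
    exact add_mem (sub_mem (mem_bJ.1 hx2).2 (mem_bJ.1 hx3).2) (mem_cM_of_mem (Λ.mul_mem hf hx1))

/-- **(Sb')** -/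
theorem spacing_b' (hΛ : LRing Λ) (hf : f ∈ Λ) {u : E} (hu : u ∈ Λ) {b₁' : E}
    (hc : den Λ c ≠ 0) (hb : den Λ b₁ ≠ 0) (hb' : den Λ b₁' ≠ 0) (d : Eˣ)
    (hd : (d : E) = u * (b₁ - b₁') + f) :
    1 ≤ (den Λ c : ℝ≥0) * (bet' Λ c b₁ * bet' Λ c b₁') * distribHaarChar E d := by
  have h1 : (bA Λ c b₁ ⊓ bA Λ c b₁').relIndex (colon Λ c) * den Λ c =
      (bA Λ c b₁ ⊓ bA Λ c b₁').relIndex Λ.toAddSubgroup :=
    AddSubgroup.relIndex_mul_relIndex _ _ _ (inf_le_left.trans inf_le_left) (colon_le Λ c)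
  have h2 : (bA Λ c b₁ ⊓ bA Λ c b₁').relIndex (colon Λ c) ≠ 0 :=
    AddSubgroup.relIndex_inf_ne_zero (bet'_ne_zero hb) (bet'_ne_zero hb')
  have h4 := one_le_of_index hΛ (I := bA Λ c b₁ ⊓ bA Λ c b₁') (M := Λ.toAddSubgroup)
    (inf_le_left.trans (inf_le_left.trans (colon_le Λ c)))
    (by rw [← h1]; exact mul_ne_zero h2 hc)
    (by rw [AddSubgroup.relIndex_self]; exact one_ne_zero) d ?_
    (m := bet' Λ c b₁ * bet' Λ c b₁' * den Λ c)
    (by rw [← h1]; exact Nat.mul_le_mul_right _ AddSubgroup.relIndex_inf_le)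
    (m' := 1) (by rw [AddSubgroup.relIndex_self])
  · refine h4.trans (le_of_eq ?_)
    push_cast
    ring
  · rintro x ⟨hx1, hx2⟩
    obtain ⟨h5, h6, h7⟩ := mem_bA.1 hx1
    obtain ⟨-, -, h8⟩ := mem_bA.1 hx2
    have h9 : (d : E) * x = u * (b₁ * x - b₁' * x) + f * x := by
      rw [hd]
      noncomm_ring
    rw [h9]
    exact Λ.add_mem (Λ.mul_mem hu (Λ.sub_mem h7 h8)) (Λ.mul_mem hf h5)

/-- **(Sc)** -/
theorem spacing_c (hΛ : LRing Λ) (hf : f ∈ Λ) {c' : E} (hc : den Λ c ≠ 0) (hc' : den Λ c' ≠ 0)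
    (d : Eˣ) (hd : (d : E) = (c - c') + f) :
    1 ≤ (den Λ c : ℝ≥0) * den Λ c' * distribHaarChar E d := by
  have h4 := one_le_of_index hΛ (I := colon Λ c ⊓ colon Λ c') (M := Λ.toAddSubgroup)
    (inf_le_left.trans (colon_le Λ c)) (AddSubgroup.relIndex_inf_ne_zero hc hc')
    (by rw [AddSubgroup.relIndex_self]; exact one_ne_zero) d ?_
    (m := den Λ c * den Λ c') AddSubgroup.relIndex_inf_le
    (m' := 1) (by rw [AddSubgroup.relIndex_self])
  · refine h4.trans (le_of_eq ?_)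
    push_cast
    ring
  · rintro x ⟨hx1, hx2⟩
    have h9 : (d : E) * x = c * x - c' * x + f * x := by
      rw [hd]
      noncomm_ring
    rw [h9]
    exact Λ.add_mem (Λ.sub_mem hx1.2 hx2.2) (Λ.mul_mem hf hx1.1)

end spacing

end Top

end Vale.Agent.P011.H40
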