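import Mathlib

/-!
Statements of the pieces of the upper bound UPR for A = M_2(D) (type checked; see the board).
-/

/-
import Vale.Agent.P011.H74.M6R
import Vale.Agent.P011.H973.ZetaLow
import Vale.Agent.P011.H380.Model
import Vale.Agent.P011.H83.ContrFF
import Vale.Agent.P011.H738.FDefs

open MeasureTheory Filter Topology Set Module IsDedekindDomain
open scoped ENNReal NNReal Pointwise CompactlySupported

namespace Vale.Agent.P011.H40

open Vale.Agent.P011.H74 Vale.Agent.P011.H380.UpBC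

section P1
variable {k R A E ι : Type*} [Field k] [CommRing R] [TopologicalSpace R] [IsTopologicalRing R]
  [Algebra k R] [Ring A] [StarRing A] [Algebra k A] [Ring E] [StarRing E] [TopologicalSpace E]
  [IsTopologicalRing E] [Algebra R E] [Fintype ι] [DecidableEq ι] (B : BCR k R A E ι)
  [Nontrivial R] [LocallyCompactSpace R] [T2Space R] [SecondCountableTopology R]
  [LocallyCompactSpace E] [MeasurableSpace E] [BorelSpace E]

theorem exists_count {O : Subring k} (hG : Good k R O) {Lam : Subring A} [Countable Lam]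
    (H : IsOrdR B.a O Lam) {m M : ℕ} {g : A} (hg : g * g = g)
    (hM : finrank k (LinearMap.range (LinearMap.mulLeft k g)) = M) (hM0 : M ≠ 0)
    (σ : (Fin m → k) →ₗ[k] A) (hσ1 : ∀ x, g * σ x = σ x) (hσ2 : ∀ x, σ x * g = σ x)
    (hu : ∀ x, x ≠ 0 → IsUnit (σ x + (1 - g))) :
    ∃ C : ℝ, 0 ≤ C ∧ ∀ Q : ℝ, 1 ≤ Q → ∀ P : Finset (Fin m → k),
      (∀ p ∈ P, ∀ p' ∈ P, ∀ l : Fin m → k, σ l ∈ Lam → p - p' + l ≠ 0 →
        ∀ d : Eˣ, (d : E) = B.j (σ (p - p' + l) + (1 - g)) → 1 ≤ Q * (distribHaarChar E d : ℝ)) →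
      (∀ p ∈ P, ∀ p' ∈ P, σ (p - p') ∈ Lam → p = p') →
      (P.card : ℝ) ≤ C * Q ^ ((m : ℝ) / M) 
end P1

section P4

theorem fourier_bound {R T : Type*} [CommRing R] [IsDedekindDomain R] [AddCommGroup T] [Module R T]
    (htor : ∀ t : T, ∃ a : R, a ≠ 0 ∧ a • t = 0) (f : T → ℝ) (hf0 : ∀ t, 0 ≤ f t) (hf1 : f 0 = 1)
    (hfs : Summable f)
    (hmul : ∀ (t t' : T) (a b : R), a • t = 0 → b • t' = 0 → IsCoprime a b →
      f (t + t') = f t * f t')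
    (χ : T → ℂ) (hχ : ∀ t t', χ (t + t') = χ t * χ t') (hχ1 : ∀ t, ‖χ t‖ = 1)
    (P : Finset (HeightOneSpectrum R)) (X : HeightOneSpectrum R → AddSubgroup T)
    (hX : ∀ v ∈ P, ∀ t ∈ X v, ∀ a ∈ v.asIdeal, a • t = 0) {c₁ : ℝ} (hc0 : 0 ≤ c₁) (hc1 : c₁ ≤ 1)
    (hloc : ∀ v ∈ P, ‖∑' t : X v, (f t : ℂ) * χ t‖ ≤
      (∑' t : X v, f t) - c₁ * ((∑' t : X v, f t) - 1)) :
    ∃ b : HeightOneSpectrum R → ℝ, (∀ v ∈ P, ∑' t : X v, f t ≤ b v) ∧
      ∏ v ∈ P, b v ≤ ∑' t, f t ∧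
      ‖∑' t, (f t : ℂ) * χ t‖ ≤ (∑' t, f t) *
        ∏ v ∈ P, (1 - c₁ * ((∑' t : X v, f t) - 1) / b v) 

end P4

section P5

theorem local_bound {A F : Type*} [Ring A] [StarRing A] [Fintype A] [DecidableEq A] [Field F]
    [Finite F] (γ : F →+* A) (hγc : ∀ c x, γ c * x = x * γ c) (hγs : ∀ c, star (γ c) = γ c)
    {τ : A} (hτc : ∀ x, τ * x = x * τ) (hτ : τ + star τ = 1)
    (hsimple : ∀ e : A, star e = e → e ≠ 0 → ∃ (r : ℕ) (x y : Fin r → A),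
      ∑ i, x i * e * y i = 1)
    {d : ℕ} (hd : Nat.card {e : A // star e = e} ≤ Nat.card F ^ d)
    (hq : Nat.log 2 (Nat.card A) + 8 ≤ Nat.card F)
    (ψ : A → ℂ) (hψ : ∀ x y, star x = x → star y = y → ψ (x + y) = ψ x * ψ y)
    (hψ1 : ∀ x, star x = x → ‖ψ x‖ = 1) (hne : ∃ x, star x = x ∧ ψ x ≠ 1)
    (w : A → ℝ) (hw0 : ∀ e, 0 ≤ w e) (hw1 : ∀ g g' e : A, g * g' = 1 → w (g * e * star g) = w e)
    (hw2 : ∀ c e, c ≠ 0 → w (γ c * e) = w e) :
    ‖∑ e : A with star e = e, (w e : ℂ) * ψ e‖ ≤ (∑ e : A with star e = e, w e) -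
      (1 / (d : ℝ) - 1 / (Nat.card F - 1)) * ((∑ e : A with star e = e, w e) - w 0) 

end P5

section P6
variable {k R A E ι : Type*} [Field k] [CommRing R] [TopologicalSpace R] [IsTopologicalRing R]
  [Algebra k R] [Ring A] [StarRing A] [Algebra k A] [Ring E] [StarRing E] [TopologicalSpace E]
  [IsTopologicalRing E] [Algebra R E] [Fintype ι] [DecidableEq ι] (B : BCR k R A E ι)
  [Nontrivial R] [LocallyCompactSpace R] [T2Space R]

theorem triv_of_infinite {O : Subring k}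
    (hOc : ∃ K : Set R, IsCompact K ∧ ∀ r : R, ∃ c ∈ O, r - algebraMap k R c ∈ K)
    {Lam : Subring A} (H : IsOrdR B.a O Lam) (hOL : ∀ c ∈ O, ∀ y ∈ Lam, c • y ∈ Lam) {q : A}
    (hq : ∀ x, q * x = x * q) (hq1 : q + star q = 1) (hqL : q ∈ Lam) (Z : AddSubgroup A) {W : Set E} (hW : W ∈ 𝓝 (0 : E))
    (hWZ : ∀ y : A, star y = y → B.j y ∈ W → y ∈ Z)
    (hLZ : ∀ y ∈ Lam, star y = y → y ∈ Z) (s : ℕ → k)
    (hs : ∀ i j, i ≠ j → s i - s j ∉ O) (hsZ : ∀ i, ∀ y ∈ Lam, star y = y → s i • y ∈ Z) :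
    ∀ y : A, star y = y → y ∈ Z 
end P6


section P7
variable {k R A E ι : Type*} [Field k] [CommRing R] [TopologicalSpace R] [IsTopologicalRing R]
  [Algebra k R] [Ring A] [StarRing A] [Algebra k A] [Ring E] [StarRing E] [TopologicalSpace E]
  [IsTopologicalRing E] [Algebra R E] [Fintype ι] [DecidableEq ι] (B : BCR k R A E ι)

noncomputable def cosI (Lam : Subring A) (W : AddSubgroup E) : ℕ :=
  ((Lam.toAddSubgroup ⊓ selfAdjoint A) ⊔
    (W.comap (B.j : A →+ E) ⊓ selfAdjoint A)).relIndex (selfAdjoint A)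

def Cos (Lam : Subring A) : Prop :=
  ∃ C : ℝ, ∃ U0 ∈ 𝓝 (0 : E), ∀ W : AddSubgroup E, IsOpen (W : Set E) → (W : Set E) ⊆ U0 →
    ∀ ε : ℝ, 0 < ε → ∀ᶠ x : ℝ in 𝓝[>] 1, ∀ F : Finset A, (∀ s ∈ F, star s = s) →
      (∀ s ∈ F, ∀ t ∈ F, B.j (s - t) ∈ W) →
      (x - 1) * ∑ s ∈ F, (H699.den Lam s : ℝ) ^ (-x) ≤ C / cosI B Lam W + ε

variable [Nontrivial R] [LocallyCompactSpace R] [T2Space R] [SecondCountableTopology R]

theorem upr_of_cos {O : Subring k} (hG : Good k R O) {R0 : Subring R} (hR0o : IsOpen (R0 : Set R))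
    (hR0c : IsCompact (R0 : Set R)) {Lam : Subring A} [Countable Lam] (H : IsOrdR B.a O Lam)
    (hcoc : CocU B Lam) (hd : DenseRange (algebraMap k R)) {w ε : A} (hw : ∀ x, w * x = x * w)
    (hwL : w ∈ Lam) (hεL : ε ∈ Lam) (hε : ε * (w - star w) = 1) (hF : Frob k A)
    (htw : ∀ u : A, star u * u = 1 → u * star u = 1 → ∃ z : A, (∀ x, z * x = x * z) ∧
      star z * z = 1 ∧ z * star z = 1 ∧ IsUnit (z * u - 1))
    (hdense : ∀ g : unitary E, ∀ V ∈ 𝓝 g, ∃ u : unitary A, jUR B u ∈ V)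
    {U : Type*} [Group U] (υ : U →* unitary A) (hυ : Function.Bijective υ)
    [MeasurableSpace (unitary E)] [BorelSpace (unitary E)] (μ : Measure (unitary E))
    [μ.IsHaarMeasure] (hcos : Cos B Lam) : UPR B υ Lam μ 
end P7

section P9
variable {k K A : Type} [Field k] [H271.GFF k] [Field K] [StarRing K] [Ring A] [StarRing A]
  [Algebra k K] [Algebra k A] [Algebra K A] [IsScalarTower k K A] [StarModule K A] {n : ℕ}

theorem exists_peirce (hA : H738.Anis k K A n) (hn : n ≠ 0)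
    (hdiv : ∃ x : A, x ≠ 0 ∧ ¬ IsUnit x) :
    ∃ e u v : A, e * e = e ∧ star e = e ∧ e * u = u ∧ u * e = 0 ∧ e * v = 0 ∧ v * e = v ∧
      u * v = e ∧ v * u = 1 - e ∧ ∀ x, e * x = x → x * e = x → x ≠ 0 → IsUnit (x + (1 - e)) 
end P9

section P5b
universe u
open Vale.Agent.P011.H973
variable {R k K : Type*} {D : Type u} [CommRing R] [IsDedekindDomain R] [Field k] [Algebra R k]
  [IsFractionRing R k] [Field K] [Ring D] [StarRing D] [Algebra k K] [Algebra k D] [Algebra K D]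
  [IsScalarTower k K D] [Algebra R D] [IsScalarTower R k D]

theorem exists_good' [IsSimpleRing D] [Algebra.IsCentral K D] {O : Subalgebra R D}
    (hstar : ∀ c : k, star (algebraMap k D c) = algebraMap k D c)
    (hO : ∀ x ∈ O, star x ∈ O) {θ : K} {T N : R}
    (hθs : star (algebraMap K D θ) = algebraMap R D T - algebraMap K D θ)
    (hθO : algebraMap K D θ ∈ O)
    (hθθ : θ * θ = algebraMap k K (algebraMap R k T) * θ - algebraMap k K (algebraMap R k N))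
    (hdisc : T ^ 2 - 4 * N ≠ 0)
    (hK : ∀ α β : k, algebraMap k K α + algebraMap k K β * θ = 0 → α = 0 ∧ β = 0)
    {ι : Type*} [Fintype ι] (b : Module.Basis ι K D) (hbO : ∀ l, b l ∈ O)
    (hfrac : ∀ x : D, ∃ a : R, a ≠ 0 ∧ a • x ∈ O) {B₀ : Set (HeightOneSpectrum R)}
    (hB₀ : B₀.Finite) (hLF : ∀ v ∉ B₀, ∀ x ∈ O, ∃ m ∉ v.asIdeal, ∃ α β : ι → R,
      m • x = comb (algebraMap K D θ) b α β) {n : ℕ} (hn : n ≠ 0) (hι : Fintype.card ι = n ^ 2) :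
    ∃ B : Set (HeightOneSpectrum R), B.Finite ∧ B₀ ⊆ B ∧ ∀ v ∉ B, Finite (R ⧸ v.asIdeal) →
      ∃ (A : Type u) (_ : Ring A) (_ : StarRing A) (ρ : Res k O v.asIdeal A), Finite A ∧
        Nat.card A ≤ Nat.card (R ⧸ v.asIdeal) ^ (2 * n ^ 2) ∧
        Nat.card (R ⧸ v.asIdeal) ^ (2 * n - 2) * (Nat.card (R ⧸ v.asIdeal) - 1) ≤
          Nat.card {e : A // star e = e ∧ rkc e = Nat.card (R ⧸ v.asIdeal) ^ (2 * n)} ∧
        (∃ τ τ' : O, (τ' : D) = star (τ : D) ∧ (∀ x : O, x * τ = τ * x) ∧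
          (∀ x : O, x * τ' = τ' * x) ∧ ρ.π (τ + τ') = 1) ∧
        ∀ e : A, star e = e → e ≠ 0 → ∃ (r : ℕ) (x y : Fin r → A), ∑ i, x i * e * y i = 1 
end P5b

end Vale.Agent.P011.H40

-/
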