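import Vale.Agent.P011.H40.TMod

/-!
# The part of the torsion module killed by a prime
-/

set_option autoImplicit false

namespace Vale.Agent.P011.H40

variable {R A : Type*} [CommRing R] [Ring A] [StarRing A] [Algebra R A]

/-- the part killed by `v` -/
def Tv (hst : ∀ (r : R) (x : A), star (r • x) = r • star x) (O : Subalgebra R A)
    (v : Ideal R) : AddSubgroup (TM hst O) where
  carrier := {t | ∀ a ∈ v, a • t = 0}
  zero_mem' := fun a _ => smul_zero a
  add_mem' := fun {s t} hs ht a ha => by rw [smul_add, hs a ha, ht a ha, add_zero]
  neg_mem' := fun {t} ht a ha => by rw [smul_neg, ht a ha, neg_zero]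

end Vale.Agent.P011.H40
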