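import Mathlib

/-
import Vale.Agent.P011.H40.Tv
import Vale.Agent.P011.H973.OrderLow
import Vale.Agent.P011.H704.Local

set_option autoImplicit false
open IsDedekindDomain Filter Topology
universe u
namespace Vale.Agent.P011.H40
open Vale.Agent.P011.H973

section
variable {R k K : Type*} {D : Type u} [CommRing R] [IsDedekindDomain R] [Field k] [Algebra R k]
  [IsFractionRing R k] [Field K] [Ring D] [StarRing D] [Algebra k K] [Algebra k D] [Algebra K D]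
  [IsScalarTower k K D] [Algebra R D] [IsScalarTower R k D]


theorem local_pkg [IsSimpleRing D] [Algebra.IsCentral K D] (h2 : Module.finrank k K = 2)
    (hstar : ∀ c : k, star (algebraMap k D c) = algebraMap k D c)
    (hst : ∀ (r : R) (x : D), star (r • x) = r • star x)
    (hne : ∃ z : K, star (algebraMap K D z) ≠ algebraMap K D z)
    {n : ℕ} (hn : n ≠ 0) (hdim : Module.finrank K D = n ^ 2) {O : Subalgebra R D}
    (hO : ∀ x ∈ O, star x ∈ O) (hfg : (Subalgebra.toSubmodule O).FG)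
    (hfrac : ∀ x : D, ∃ a : R, a ≠ 0 ∧ a • x ∈ O) {O' : Subalgebra R D} (hOO : O ≤ O') {M : Set R}
    (hM : ∀ y ∈ O', ∃ t ∈ M, t • y ∈ O) {B₁ : Set (HeightOneSpectrum R)}
    (hB₁ : B₁.Finite) (hMB : ∀ t ∈ M, t ≠ 0 ∧ ∀ w : HeightOneSpectrum R, t ∈ w.asIdeal → w ∈ B₁)
    (hfew : ∀ m : ℕ, {v : HeightOneSpectrum R | Finite (R ⧸ v.asIdeal) ∧
      Nat.card (R ⧸ v.asIdeal) ≤ m}.Finite) :
    ∃ Bd : Set (HeightOneSpectrum R), Bd.Finite ∧ B₁ ⊆ Bd ∧ ∀ v ∉ Bd, Finite (R ⧸ v.asIdeal) →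
      (∀ x : ℝ, 1 + (1 - 1 / (Nat.card (R ⧸ v.asIdeal) : ℝ)) *
        (Nat.card (R ⧸ v.asIdeal) : ℝ) ^ (-(1 + 2 * n * (x - 1))) ≤
          ∑' t : Tv hst O' v.asIdeal, wtT hst O' x t) ∧
      ∀ (x : ℝ) (χ : TM hst O' → ℂ), (∀ t t', χ (t + t') = χ t * χ t') → (∀ t, ‖χ t‖ = 1) →
        (∃ t ∈ Tv hst O' v.asIdeal, χ t ≠ 1) →
        ‖∑' t : Tv hst O' v.asIdeal, (wtT hst O' x t : ℂ) * χ t‖ ≤
          (∑' t : Tv hst O' v.asIdeal, wtT hst O' x t) -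
            1 / (4 * (n : ℝ) ^ 2) * ((∑' t : Tv hst O' v.asIdeal, wtT hst O' x t) - 1) := by
  

end
end Vale.Agent.P011.H40
-/
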