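import Mathlib

/-
import Vale.Agent.P011.H40.Tv
import Vale.Agent.P011.H40.Mass
import Vale.Agent.P011.H973.OrderLow
import Vale.Agent.P011.H704.Fourier
import Vale.Agent.P011.H152.CountM2
import Vale.Agent.P011.H401.Triv

set_option autoImplicit false
open IsDedekindDomain Filter Topology MeasureTheory Module
namespace Vale.Agent.P011.H40
open Vale.Agent.P011.H973 Vale.Agent.P011.H74 Vale.Agent.P011.H380.UpBC Vale.Agent.P011.H699

section P10
variable {k R A E ι : Type*} [Field k] [CommRing R] [TopologicalSpace R] [IsTopologicalRing R]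
  [Algebra k R] [Ring A] [StarRing A] [Algebra k A] [Ring E] [StarRing E] [TopologicalSpace E]
  [IsTopologicalRing E] [Algebra R E] [Fintype ι] [DecidableEq ι] (B : BCR k R A E ι)
  [Nontrivial R] [LocallyCompactSpace R] [T2Space R] [SecondCountableTopology R]
  [LocallyCompactSpace E] [MeasurableSpace E] [BorelSpace E]

theorem counts_M2 {O : Subring k} (hG : Good k R O) {Lam : Subring A} [Countable Lam]
    (H : IsOrdR B.a O Lam) {e f u v : A} (h : Mat2 Lam e f u v) (he0 : e ≠ 0)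
    (hdiv : ∀ x, e * x = x → x * e = x → x ≠ 0 → IsUnit (x + f)) {w : A}
    (hw : ∀ x, w * x = x * w) (hwu : IsUnit (w - star w)) :
    CountP B.j Lam {x | star x = x ∧ f * x = x} e (1 / 4) ∧
    CountP B.j Lam {x | e * x = x ∧ x * e = x} f (1 / 2) ∧
    CountP B.j Lam {x | star x = x ∧ e * x = x} f (1 / 4) := by
  

end P10

section P11
variable {P k R A E ι : Type*} [CommRing P] [IsDedekindDomain P] [Field k] [Algebra P k]
  [IsFractionRing P k] [CommRing R] [TopologicalSpace R] [IsTopologicalRing R]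
  [Algebra k R] [Ring A] [StarRing A] [Algebra k A] [Algebra P A] [IsScalarTower P k A] [Ring E]
  [StarRing E] [TopologicalSpace E] [IsTopologicalRing E] [Algebra R E] [Fintype ι]
  [DecidableEq ι] (B : BCR k R A E ι) [Nontrivial R] [LocallyCompactSpace R] [T2Space R]

theorem char_nontriv {O : Subring k} (hG : Good k R O)
    (hst : ∀ (r : P) (x : A), star (r • x) = r • star x) {O' : Subalgebra P A}
    (H : IsOrdR B.a O O'.toSubring) (hOL : ∀ c ∈ O, ∀ y ∈ O', c • y ∈ O') {q : A}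
    (hq : ∀ x, q * x = x * q) (hq1 : q + star q = 1) (hqL : q ∈ O')
    {B₁ : Set (HeightOneSpectrum P)} (hint : ∀ z ∈ O, ∀ v : HeightOneSpectrum P, v ∉ B₁ →
      ∃ t ∉ v.asIdeal, ∃ r : P, algebraMap P k r = algebraMap P k t * z)
    {W : AddSubgroup E} (hW : (W : Set E) ∈ 𝓝 0) {χ : TM hst O' → ℂ}
    (hχ : ∀ t t', χ (t + t') = χ t * χ t') (hχ1 : ∀ t, ‖χ t‖ = 1)
    (hχW : ∀ y : SymR hst, B.j y ∈ W → χ (Submodule.Quotient.mk y) = 1) (hne : ∃ t, χ t ≠ 1) :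
    {v : HeightOneSpectrum P | v ∉ B₁ ∧ ∀ t ∈ Tv hst O' v.asIdeal, χ t = 1}.Finite := by
  

end P11

section P12
variable {P A : Type*} [CommRing P] [IsDedekindDomain P] [Ring A] [StarRing A] [Algebra P A]

theorem fourier_zero (hE : HasEuler P) (hst : ∀ (r : P) (x : A), star (r • x) = r • star x)
    {O' : Subalgebra P A} (hfrac : ∀ x : A, ∃ a : P, a ≠ 0 ∧ a • x ∈ O') {n : ℕ} (hn : n ≠ 0)
    {C : ℝ} (hmass : ∀ x : ℝ, 1 < x → x ≤ 2 →
      Summable (wtT hst O' x) ∧ ∑' t, wtT hst O' x t ≤ C / (x - 1))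
    {Bd : Set (HeightOneSpectrum P)} (hBd : Bd.Finite)
    (hloc : ∀ v ∉ Bd, Finite (P ⧸ v.asIdeal) →
      (∀ x : ℝ, 1 + (1 - 1 / (Nat.card (P ⧸ v.asIdeal) : ℝ)) *
        (Nat.card (P ⧸ v.asIdeal) : ℝ) ^ (-(1 + 2 * n * (x - 1))) ≤
          ∑' t : Tv hst O' v.asIdeal, wtT hst O' x t) ∧
      ∀ (x : ℝ) (χ : TM hst O' → ℂ), (∀ t t', χ (t + t') = χ t * χ t') → (∀ t, ‖χ t‖ = 1) →
        (∃ t ∈ Tv hst O' v.asIdeal, χ t ≠ 1) →
        ‖∑' t : Tv hst O' v.asIdeal, (wtT hst O' x t : ℂ) * χ t‖ ≤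
          (∑' t : Tv hst O' v.asIdeal, wtT hst O' x t) -
            1 / (4 * (n : ℝ) ^ 2) * ((∑' t : Tv hst O' v.asIdeal, wtT hst O' x t) - 1))
    {χ : TM hst O' → ℂ} (hχ : ∀ t t', χ (t + t') = χ t * χ t') (hχ1 : ∀ t, ‖χ t‖ = 1)
    (hfin : {v : HeightOneSpectrum P | v ∉ Bd ∧ ∀ t ∈ Tv hst O' v.asIdeal, χ t = 1}.Finite) :
    Tendsto (fun x : ℝ => (x - 1) * ‖∑' t, (wtT hst O' x t : ℂ) * χ t‖) (𝓝[>] 1) (𝓝 0) := by
  

end P12
end Vale.Agent.P011.H40
-/
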