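import Vale.Agent.P011.H699.Den
import Vale.Agent.P011.H973.Crt

/-!
# The module of symmetric elements modulo an order and the weight `den ^ (-x)`
-/

set_option autoImplicit false
set_option linter.unusedSectionVars false

open IsDedekindDomain Filter Topology

namespace Vale.Agent.P011.H40

open Vale.Agent.P011.H699

section defs

variable {R A : Type*} [CommRing R] [Ring A] [StarRing A] [Algebra R A]

/-- The symmetric elements. -/
def SymR (hst : ∀ (r : R) (x : A), star (r • x) = r • star x) : Submodule R A where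
  carrier := {x | star x = x}
  zero_mem' := star_zero A
  add_mem' := fun {a b} ha hb => by
    have ha' : star a = a := ha
    have hb' : star b = b := hb
    change star (a + b) = a + b
    rw [star_add, ha', hb']
  smul_mem' := fun c x hx => by
    have hx' : star x = x := hx
    change star (c • x) = c • x
    rw [hst, hx']

variable (hst : ∀ (r : R) (x : A), star (r • x) = r • star x) (O : Subalgebra R A)

/-- The symmetric elements modulo the order. -/
abbrev TM : Type _ := SymR hst ⧸ (Subalgebra.toSubmodule O).comap (SymR hst).subtype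

/-- The weight. -/
noncomputable def wtT (x : ℝ) (t : TM hst O) : ℝ :=
  (den O.toSubring ((t.out : SymR hst) : A) : ℝ) ^ (-x)

variable {O}

theorem mk_eq_zero {y : SymR hst} : (Submodule.Quotient.mk y : TM hst O) = 0 ↔ (y : A) ∈ O := by
  rw [Submodule.Quotient.mk_eq_zero, Submodule.mem_comap]
  rfl

theorem mk_eq_mk {y y' : SymR hst} :
    (Submodule.Quotient.mk y : TM hst O) = Submodule.Quotient.mk y' ↔ (y : A) - y' ∈ O := by
  rw [Submodule.Quotient.eq, Submodule.mem_comap]
  rfl

theorem out_sub (y : SymR hst) :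
    ((((Submodule.Quotient.mk y : TM hst O)).out : SymR hst) : A) - y ∈ O := by
  rw [← mk_eq_mk hst]
  exact Quotient.out_eq _

theorem wtT_mk (x : ℝ) (y : SymR hst) :
    wtT hst O x (Submodule.Quotient.mk y) = (den O.toSubring (y : A) : ℝ) ^ (-x) := by
  rw [wtT]
  congr 2
  have h := out_sub (O := O) hst y
  have h1 : (((Submodule.Quotient.mk y : TM hst O).out : SymR hst) : A) =
      (y : A) + ((((Submodule.Quotient.mk y : TM hst O)).out : SymR hst) - (y : A)) := by abel
  rw [h1]
  exact den_add h _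

theorem wtT_nonneg (x : ℝ) (t : TM hst O) : 0 ≤ wtT hst O x t := by
  unfold wtT
  positivity

theorem wtT_zero (x : ℝ) : wtT hst O x 0 = 1 := by
  have h := wtT_mk (O := O) hst x 0
  rw [Submodule.Quotient.mk_zero] at h
  rw [h]
  have h1 : den O.toSubring (((0 : SymR hst) : A)) = 1 := by
    rw [den, AddSubgroup.relIndex_eq_one]
    intro z hz
    refine ⟨hz, ?_⟩
    rw [Submodule.coe_zero, zero_mul]
    exact O.zero_mem
  rw [h1, Nat.cast_one, Real.one_rpow]

/-- multiplicativity of the denominator -/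
theorem den_add_of_coprime {y y' : A} {a b : R} (ha : a • y ∈ O) (hb : b • y' ∈ O)
    (hab : IsCoprime a b) : den O.toSubring (y + y') = den O.toSubring y * den O.toSubring y' := by
  obtain ⟨u, w, huw⟩ := hab
  set Λ := O.toSubring with hΛ
  have hsmul : ∀ (r : R) {z : A}, z ∈ Λ → r • z ∈ Λ := fun r z hz => O.smul_mem hz r
  have h1 : colon Λ (y + y') = colon Λ y ⊓ colon Λ y' := by
    ext z
    rw [AddSubgroup.mem_inf, mem_colon, mem_colon, mem_colon]
    constructor
    · rintro ⟨hz, h⟩
      have h2 : y * z ∈ Λ := by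
        have e1 : b • (y * z) = b • ((y + y') * z) - (b • y') * z := by
          rw [smul_mul_assoc, ← smul_sub]
          congr 1
          noncomm_ring
        have h3 : b • (y * z) ∈ Λ := by
          rw [e1]
          exact Λ.sub_mem (hsmul b h) (Λ.mul_mem hb hz)
        have e2 : y * z = u • ((a • y) * z) + w • (b • (y * z)) := by
          rw [smul_mul_assoc, smul_smul, smul_smul, ← add_smul, huw, one_smul]
        rw [e2]
        exact Λ.add_mem (hsmul u (Λ.mul_mem ha hz)) (hsmul w h3)
      refine ⟨⟨hz, h2⟩, hz, ?_⟩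
      have e3 : y' * z = (y + y') * z - y * z := by noncomm_ring
      rw [e3]
      exact Λ.sub_mem h h2
    · rintro ⟨⟨hz, h2⟩, -, h3⟩
      refine ⟨hz, ?_⟩
      rw [add_mul]
      exact Λ.add_mem h2 h3
  have h2 : colon Λ y' ⊔ colon Λ y = Λ.toAddSubgroup := by
    refine le_antisymm (sup_le (colon_le Λ y') (colon_le Λ y)) fun z hz => ?_
    have e1 : z = (w * b) • z + (u * a) • z := by rw [← add_smul, add_comm, huw, one_smul]
    rw [e1]
    refine AddSubgroup.add_mem_sup ⟨hsmul _ hz, ?_⟩ ⟨hsmul _ hz, ?_⟩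
    · change y' * ((w * b) • z) ∈ Λ
      have e2 : y' * ((w * b) • z) = w • ((b • y') * z) := by
        rw [mul_smul_comm, mul_smul, smul_mul_assoc]
      rw [e2]
      exact hsmul w (Λ.mul_mem hb hz)
    · change y * ((u * a) • z) ∈ Λ
      have e2 : y * ((u * a) • z) = u • ((a • y) * z) := by
        rw [mul_smul_comm, mul_smul, smul_mul_assoc]
      rw [e2]
      exact hsmul u (Λ.mul_mem ha hz)
  rw [den, h1, ← AddSubgroup.relIndex_mul_relIndex _ _ _ inf_le_right (colon_le Λ y'),
    AddSubgroup.inf_relIndex_right, ← AddSubgroup.relIndex_sup_left (colon Λ y') (colon Λ y),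
    sup_comm, h2]
  rfl

theorem wtT_add (x : ℝ) (t t' : TM hst O) (a b : R) (ha : a • t = 0) (hb : b • t' = 0)
    (hab : IsCoprime a b) : wtT hst O x (t + t') = wtT hst O x t * wtT hst O x t' := by
  obtain ⟨y, rfl⟩ := Submodule.Quotient.mk_surjective _ t
  obtain ⟨y', rfl⟩ := Submodule.Quotient.mk_surjective _ t'
  rw [← Submodule.Quotient.mk_smul, mk_eq_zero] at ha hb
  rw [← Submodule.Quotient.mk_add, wtT_mk, wtT_mk, wtT_mk]
  have h := den_add_of_coprime (O := O) (y := (y : A)) (y' := (y' : A)) ha hb hab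
  have h1 : ((y + y' : SymR hst) : A) = (y : A) + y' := rfl
  rw [h1, h, Nat.cast_mul, Real.mul_rpow (by positivity) (by positivity)]

/-- the torsion condition -/
theorem tors_TM (hfrac : ∀ x : A, ∃ a : R, a ≠ 0 ∧ a • x ∈ O) (t : TM hst O) :
    ∃ a : R, a ≠ 0 ∧ a • t = 0 := by
  obtain ⟨y, rfl⟩ := Submodule.Quotient.mk_surjective _ t
  obtain ⟨a, ha, h⟩ := hfrac y
  refine ⟨a, ha, ?_⟩
  rw [← Submodule.Quotient.mk_smul, mk_eq_zero]
  exact h

/-- total mass -/
theorem mass_TM {x C : ℝ} (hmass : ∀ F : Finset A, (∀ s ∈ F, star s = s) →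
      (∀ s ∈ F, ∀ t ∈ F, s - t ∈ O.toSubring → s = t) →
      ∑ s ∈ F, (den O.toSubring s : ℝ) ^ (-x) ≤ C) :
    Summable (wtT hst O x) ∧ ∑' t, wtT hst O x t ≤ C := by
  classical
  have h1 : ∀ F : Finset (TM hst O), ∑ t ∈ F, wtT hst O x t ≤ C := by
    intro F
    have hinj : Function.Injective fun t : TM hst O => ((t.out : SymR hst) : A) := by
      intro t t' h
      have h2 : (t.out : SymR hst) = t'.out := Subtype.ext h
      have h3 := congrArg (Submodule.Quotient.mk : SymR hst → TM hst O) h2
      have h4 : ∀ t : TM hst O, (Submodule.Quotient.mk (t.out : SymR hst) : TM hst O) = t :=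
        fun t => Quotient.out_eq t
      rwa [h4, h4] at h3
    have h2 := hmass (F.image fun t : TM hst O => ((t.out : SymR hst) : A)) (fun s hs => by
      obtain ⟨t, -, rfl⟩ := Finset.mem_image.1 hs
      exact (t.out : SymR hst).2) (fun s hs s' hs' hss => by
      obtain ⟨t, -, rfl⟩ := Finset.mem_image.1 hs
      obtain ⟨t', -, rfl⟩ := Finset.mem_image.1 hs'
      have h3 : (Submodule.Quotient.mk (t.out : SymR hst) : TM hst O) =
          Submodule.Quotient.mk (t'.out : SymR hst) := (mk_eq_mk hst).2 hss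
      have h4 : ∀ t : TM hst O, (Submodule.Quotient.mk (t.out : SymR hst) : TM hst O) = t :=
        fun t => Quotient.out_eq t
      rw [h4, h4] at h3
      rw [h3])
    rw [Finset.sum_image fun _ _ _ _ h => hinj h] at h2
    exact h2
  have h2 : Summable (wtT hst O x) :=
    summable_of_sum_le (wtT_nonneg hst x) h1
  exact ⟨h2, h2.tsum_le_of_sum_le h1⟩

end defs

end Vale.Agent.P011.H40
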